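import Vale.Agent.P139.H700.SSpec
import Vale.Agent.P139.KU.Evans

/-!
# P139 / H700 : compactness reduction for block [S2] (helper700)

To prove `S2Out` it is enough to treat one convergent sequence `(m_j, lam_j)` with fixed `l`,
whose parameters converge to an exact zero of the hard wall matching function.
-/

open scoped ComplexConjugate ContDiff Topology
open Complex Filter Set

namespace Vale.Agent.P139.H700

open Vale.Agent.P139.BU Vale.Agent.P139.KU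

/-- Continuity of `J` in all its arguments. -/
theorem continuousAt_J3 {X : Type*} [TopologicalSpace X] {a c z : X → ℂ} {x : X}
    (ha : ContinuousAt a x) (hc : ContinuousAt c x) (hz : ContinuousAt z x)
    (h1 : 0 < (a x).re) (h2 : 0 < (z x).re) :
    ContinuousAt (fun y => J (a y) (c y) (z y)) x := by
  have hJ : ContinuousAt (fun q : ℂ × ℂ × ℂ => J q.1 q.2.1 q.2.2) (a x, c x, z x) :=
    (differentiableOn_J.differentiableAt (isOpen_dom.mem_nhds ⟨h1, h2⟩)).continuousAt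
  exact ContinuousAt.comp (g := fun q : ℂ × ℂ × ℂ => J q.1 q.2.1 q.2.2)
    (f := fun y => ((a y, c y, z y) : ℂ × ℂ × ℂ)) hJ (ha.prodMk (hc.prodMk hz))

/-- `Qinf'` in terms of `J`. -/
theorem Qinf'_eq_J {d : ℕ} {w r : ℝ} (hr : 0 < r) :
    Qinf' d w r = (r / 2) * (I * w) *
      (J (1 - I * w) ((d : ℂ) / 2 - 1 + I * w) ((r ^ 2 / 4 : ℝ) : ℂ) / Gamma (1 - I * w)) := by
  rw [Qinf'_eq, G, S_eq_of_pos _ (by simp) (rho_pos hr)]
  congr 3
  ring_nf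

/-- Every sequence of indices has a subsequence along which the parameters converge to an exact
zero of the hard wall matching function. -/
theorem exists_limit {d : ℕ} {B : Set (ℝ × ℝ)} {m0 : ℕ} {w R : ℕ → ℝ} {q : ℕ → ℝ → ℂ}
    (h : UP d B m0 w R q) (hB : IsClosed B) {φ : ℕ → ℕ} (hφ : StrictMono φ) :
    ∃ ψ : ℕ → ℕ, StrictMono ψ ∧ (∀ j, m0 ≤ φ (ψ j)) ∧ ∃ w0 R0 : ℝ, 0 < w0 ∧ w0 ≤ 1 ∧ 0 < R0 ∧
      (w0, R0) ∈ B ∧ Tendsto (fun j => w (φ (ψ j))) atTop (𝓝 w0) ∧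
      Tendsto (fun j => R (φ (ψ j))) atTop (𝓝 R0) ∧ Qinf' d w0 R0 = 0 := by
  obtain ⟨w1, hw1, hw⟩ := h.wbd
  obtain ⟨R1, hR1, R2, hR⟩ := h.Rbd
  have hφm : ∀ j, m0 ≤ φ (j + m0) := fun j =>
    (Nat.le_add_left m0 j).trans (hφ.id_le (j + m0))
  obtain ⟨p, hp, ψ, hψ, hlim⟩ := (isCompact_Icc (a := ((w1, R1) : ℝ × ℝ)) (b := (1, R2))).tendsto_subseq
    (x := fun j => (w (φ (j + m0)), R (φ (j + m0))))
    (fun j => ⟨⟨(hw _ (hφm j)).1, (hR _ (hφm j)).1⟩, ⟨(hw _ (hφm j)).2, (hR _ (hφm j)).2⟩⟩)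
  obtain ⟨w0, R0⟩ := p
  have hw0 : 0 < w0 := hw1.trans_le hp.1.1
  have hR0 : 0 < R0 := hR1.trans_le hp.1.2
  have hlw : Tendsto (fun j => w (φ (ψ j + m0))) atTop (𝓝 w0) :=
    (continuous_fst.tendsto (w0, R0)).comp hlim
  have hlR : Tendsto (fun j => R (φ (ψ j + m0))) atTop (𝓝 R0) :=
    (continuous_snd.tendsto (w0, R0)).comp hlim
  refine ⟨fun j => ψ j + m0, fun a b hab => by simpa using hψ hab, fun j => hφm (ψ j), w0, R0,
    hw0, hp.2.1, hR0, hB.mem_of_tendsto hlim (Eventually.of_forall fun j => h.mem _ (hφm (ψ j))),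
    hlw, hlR, ?_⟩
  have hmono : StrictMono fun j => φ (ψ j + m0) := fun a b hab =>
    hφ (by simpa using hψ hab)
  have hz := h.zero.comp hmono.tendsto_atTop
  have hcont : ContinuousAt (fun x : ℝ × ℝ => J (1 - I * (x.1 : ℂ)) ((d : ℂ) / 2 - 1 + I * (x.1 : ℂ))
      (((x.2) ^ 2 / 4 : ℝ) : ℂ)) (w0, R0) := by
    refine continuousAt_J3 (by fun_prop) (by fun_prop) ?_ (by simp) (rho_pos hR0)
    exact Complex.continuous_ofReal.continuousAt.comp (by fun_prop)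
  have hlim2 := hcont.tendsto.comp hlim
  have h0 : J (1 - I * (w0 : ℂ)) ((d : ℂ) / 2 - 1 + I * (w0 : ℂ)) (((R0) ^ 2 / 4 : ℝ) : ℂ) = 0 :=
    tendsto_nhds_unique hlim2 hz
  rw [Qinf'_eq_J hR0, h0, zero_div, mul_zero]

/-- Compactness reduction for [S2]. -/
theorem s2Out_of_seq {d : ℕ} {B : Set (ℝ × ℝ)} {m0 : ℕ} {w R : ℕ → ℝ} {q : ℕ → ℝ → ℂ}
    (h : UP d B m0 w R q) (hB : IsClosed B) {Good : ℝ → ℝ → Prop}
    (hI3 : ∀ w R : ℝ, (w, R) ∈ B → 0 < w → 0 < R → Qinf' d w R = 0 → Good w R) (K : ℕ → ℕ)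
    (hseq : ∀ (l : ℕ) (φ : ℕ → ℕ), StrictMono φ → (∀ j, m0 ≤ φ j) →
      ∀ (lam : ℕ → ℂ) (lam0 : ℂ) (w0 R0 : ℝ), (∀ j, 0 ≤ (lam j).re) →
      Tendsto lam atTop (𝓝 lam0) → Tendsto (fun j => w (φ j)) atTop (𝓝 w0) →
      Tendsto (fun j => R (φ j)) atTop (𝓝 R0) → 0 < w0 → w0 ≤ 1 → 0 < R0 → (w0, R0) ∈ B →
      Qinf' d w0 R0 = 0 → Good w0 R0 →
      ∃ j, EigAt d (φ j) (K (φ j)) (w (φ j)) (q (φ j)) l (lam j) ∧
        JorAt d (φ j) (K (φ j)) (w (φ j)) (q (φ j)) l (lam j)) :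
    S2Out d w q := by
  intro L0 l0
  by_contra hcon
  push Not at hcon
  choose m hm hbad using hcon
  choose l lam hl hre hn hbad using fun m1 => hbad m1 (K (m m1))
  -- strictly increasing indices
  obtain ⟨φ, hφ, hφm⟩ : ∃ φ : ℕ → ℕ, StrictMono φ ∧ StrictMono fun j => m (φ j) := by
    have hten : Tendsto m atTop atTop := tendsto_atTop_mono hm tendsto_id
    obtain ⟨φ, hφ, hφ2⟩ := strictMono_subseq_of_tendsto_atTop hten
    exact ⟨φ, hφ, hφ2⟩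
  -- constant `l`
  obtain ⟨l1, hl1⟩ : ∃ l1, ∃ᶠ j in atTop, l (φ j) = l1 := by
    by_contra hc
    have hc' : ∀ l1, ∀ᶠ j in atTop, l (φ j) ≠ l1 := fun l1 => by
      by_contra hc2
      exact hc ⟨l1, fun hc3 => hc2 hc3⟩
    have : ∀ᶠ j in atTop, ∀ l1 ∈ Finset.range (l0 + 1), l (φ j) ≠ l1 :=
      (Filter.eventually_all_finset _).2 fun l1 _ => hc' l1
    obtain ⟨j, hj⟩ := this.exists
    exact hj (l (φ j)) (Finset.mem_range.2 (Nat.lt_succ_of_le (hl _))) rfl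
  obtain ⟨χ, hχ, hlχ⟩ := Filter.extraction_of_frequently_atTop hl1
  -- convergent `lam`
  obtain ⟨lam0, -, χ2, hχ2, hlam⟩ := (isCompact_closedBall (0 : ℂ) L0).tendsto_subseq
    (x := fun j => lam (φ (χ j))) (fun j => by
      rw [mem_closedBall_zero_iff]; exact hn _)
  have hm2 : StrictMono fun j => m (φ (χ (χ2 j))) := fun a b hab => hφm (hχ (hχ2 hab))
  obtain ⟨ψ, hψ, hψm, w0, R0, hw0, hw1, hR0, hmem, hlw, hlR, hQ⟩ := exists_limit h hB hm2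
  obtain ⟨j, hj1, hj2⟩ := hseq l1 (fun j => m (φ (χ (χ2 (ψ j))))) (fun a b hab => hm2 (hψ hab)) hψm
    (fun j => lam (φ (χ (χ2 (ψ j))))) lam0 w0 R0 (fun j => hre _) (hlam.comp hψ.tendsto_atTop)
    hlw hlR hw0 hw1 hR0 hmem hQ (hI3 w0 R0 hmem hw0 hR0 hQ)
  have e := hlχ (χ2 (ψ j))
  rw [← e] at hj1 hj2
  exact hbad _ hj1 hj2

end Vale.Agent.P139.H700
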