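import Vale.Agent.P139.BU.UP

/-!
# P139 / H700 : assembly of block [S] (helper700)

`S1Out`, `S2Out` are the output statements of the blocks [S1] (high frequency) and
[S2] (bounded frequency, exterior + inner + certificate), for a family of profiles.
`radStable_of_outs` : both together give `RadStable` for all large `m`.
-/

open scoped ComplexConjugate ContDiff Topology
open Complex Filter Set

namespace Vale.Agent.P139.H700

open Vale.Agent.P139.BU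

theorem RadAdm.mono {K K' : ℕ} (h : K ≤ K') {F : ℝ → ℂ} (hF : RadAdm K' F) : RadAdm K F where
  smooth := hF.smooth.of_le (by exact_mod_cast h)
  bdd0 := hF.bdd0
  bddinf := fun k hk => hF.bddinf k (hk.trans h)

/-- The eigenvalue clause of `RadStable` for one `(l, lam)`. -/
def EigAt (d m K : ℕ) (w : ℝ) (q : ℝ → ℂ) (l : ℕ) (lam : ℂ) : Prop :=
  ∀ F G : ℝ → ℂ, RadAdm K F → RadAdm K G →
    (∀ r > 0, RL1 d m l w q F G r = lam * F r) →
    (∀ r > 0, RL2 d m l w q F G r = lam * G r) → RadMode m l w q lam F G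

/-- The Jordan clause of `RadStable` for one `(l, lam)`. -/
def JorAt (d m K : ℕ) (w : ℝ) (q : ℝ → ℂ) (l : ℕ) (lam : ℂ) : Prop :=
  ∀ F G F0 G0 : ℝ → ℂ, RadAdm K F → RadAdm K G → RadMode m l w q lam F0 G0 →
    (∀ r > 0, RL1 d m l w q F G r = lam * F r + F0 r) →
    (∀ r > 0, RL2 d m l w q F G r = lam * G r + G0 r) → ∀ r > 0, F0 r = 0 ∧ G0 r = 0

theorem EigAt.mono {d m K K' : ℕ} {w : ℝ} {q : ℝ → ℂ} {l : ℕ} {lam : ℂ} (hK : K ≤ K')
    (h : EigAt d m K w q l lam) : EigAt d m K' w q l lam :=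
  fun F G hF hG e1 e2 => h F G (RadAdm.mono hK hF) (RadAdm.mono hK hG) e1 e2

theorem JorAt.mono {d m K K' : ℕ} {w : ℝ} {q : ℝ → ℂ} {l : ℕ} {lam : ℂ} (hK : K ≤ K')
    (h : JorAt d m K w q l lam) : JorAt d m K' w q l lam :=
  fun F G F0 G0 hF hG h0 e1 e2 => h F G F0 G0 (RadAdm.mono hK hF) (RadAdm.mono hK hG) h0 e1 e2

/-- Output of [S1] : no nonzero admissible radial pair with `|lam| + l` large, uniformly in `m`. -/
def S1Out (d : ℕ) (w : ℕ → ℝ) (q : ℕ → ℝ → ℂ) : Prop :=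
  ∃ (m1 : ℕ) (L0 : ℝ), ∀ m, m1 ≤ m → ∃ K : ℕ, ∀ (l : ℕ) (lam : ℂ), 0 ≤ lam.re →
    L0 ≤ ‖lam‖ + l → ∀ F G : ℝ → ℂ, RadAdm K F → RadAdm K G →
    (∀ r > 0, RL1 d m l (w m) (q m) F G r = lam * F r) →
    (∀ r > 0, RL2 d m l (w m) (q m) F G r = lam * G r) → ∀ r > 0, F r = 0 ∧ G r = 0

/-- Output of [S2] : bounded `(l, lam)`. -/
def S2Out (d : ℕ) (w : ℕ → ℝ) (q : ℕ → ℝ → ℂ) : Prop :=
  ∀ (L0 : ℝ) (l0 : ℕ), ∃ m1 : ℕ, ∀ m, m1 ≤ m → ∃ K : ℕ, ∀ (l : ℕ) (lam : ℂ), l ≤ l0 →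
    0 ≤ lam.re → ‖lam‖ ≤ L0 → EigAt d m K (w m) (q m) l lam ∧ JorAt d m K (w m) (q m) l lam

/-- Only `|lam| + l ≤ 3/2` carries nonzero radial modes. -/
theorem RadMode.zero_of_large {m l : ℕ} {w : ℝ} {q : ℝ → ℂ} {lam : ℂ} {F G : ℝ → ℂ}
    (h : RadMode m l w q lam F G) (hL : 2 ≤ ‖lam‖ + l) : ∀ r > 0, F r = 0 ∧ G r = 0 := by
  rcases h with ⟨hl, hlam, -⟩ | ⟨hl, hlam, -⟩ | ⟨hl, hlam, -⟩ | h
  · subst hl hlam; norm_num at hL
  · subst hl hlam; norm_num at hL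
  · subst hl hlam; norm_num at hL
  · exact h

/-- [S1] + [S2] give radial mode stability for all large `m`. -/
theorem radStable_of_outs {d : ℕ} {w : ℕ → ℝ} {q : ℕ → ℝ → ℂ}
    (h1 : S1Out d w q) (h2 : S2Out d w q) :
    ∃ m0 : ℕ, ∀ m, m0 ≤ m → ∃ K : ℕ, RadStable d m K (w m) (q m) := by
  obtain ⟨m1, L0, H1⟩ := h1
  obtain ⟨m2, H2⟩ := h2 (max L0 2) (Nat.ceil (max L0 2))
  refine ⟨max m1 m2, fun m hm => ?_⟩
  obtain ⟨K1, H1⟩ := H1 m (le_trans (le_max_left _ _) hm)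
  obtain ⟨K2, H2⟩ := H2 m (le_trans (le_max_right _ _) hm)
  refine ⟨max K1 K2, ⟨fun l lam hre F G hF hG e1 e2 => ?_,
    fun l lam hre F G F0 G0 hF hG h0 e1 e2 => ?_⟩⟩
  · by_cases hL : max L0 2 ≤ ‖lam‖ + l
    · exact Or.inr (Or.inr (Or.inr (H1 l lam hre ((le_max_left _ _).trans hL) F G
        (RadAdm.mono (le_max_left _ _) hF) (RadAdm.mono (le_max_left _ _) hG) e1 e2)))
    · push Not at hL
      have hl : l ≤ Nat.ceil (max L0 2) := by
        have : (l : ℝ) ≤ max L0 2 := by linarith [norm_nonneg lam]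
        exact_mod_cast this.trans (Nat.le_ceil _)
      have hn : ‖lam‖ ≤ max L0 2 := by
        have : (0 : ℝ) ≤ l := Nat.cast_nonneg l
        linarith
      exact (H2 l lam hl hre hn).1 F G (RadAdm.mono (le_max_right _ _) hF)
        (RadAdm.mono (le_max_right _ _) hG) e1 e2
  · by_cases hL : max L0 2 ≤ ‖lam‖ + l
    · exact RadMode.zero_of_large h0 ((le_max_right _ _).trans hL)
    · push Not at hL
      have hl : l ≤ Nat.ceil (max L0 2) := by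
        have : (l : ℝ) ≤ max L0 2 := by linarith [norm_nonneg lam]
        exact_mod_cast this.trans (Nat.le_ceil _)
      have hn : ‖lam‖ ≤ max L0 2 := by
        have : (0 : ℝ) ≤ l := Nat.cast_nonneg l
        linarith
      exact (H2 l lam hl hre hn).2 F G F0 G0 (RadAdm.mono (le_max_right _ _) hF)
        (RadAdm.mono (le_max_right _ _) hG) h0 e1 e2

end Vale.Agent.P139.H700
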