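import Vale.Agent.P139.H700.UC
import Vale.Agent.P139.H700.SSpec

/-!
# P139 / H700 : from a violation of `EigAt` / `JorAt` to normalised data (helper700)
-/

open scoped ComplexConjugate ContDiff Topology
open Complex Filter Set

namespace Vale.Agent.P139.H700

open Vale.Agent.P139.BU Vale.Agent.P139.H311

/-- The symmetric spectral values. -/
def SymV (l : ℕ) (lam : ℂ) : Prop := (l = 0 ∧ (lam = 0 ∨ lam = 1)) ∨ (l = 1 ∧ lam = 1 / 2)

/-- The explicit symmetry mode, first component. -/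
noncomputable def sF (m : ℕ) (w : ℝ) (q : ℝ → ℂ) (lam : ℂ) (r : ℝ) : ℂ :=
  if lam = 0 then I * q r else if lam = 1 / 2 then deriv q r
  else ((aa m : ℂ) - I * (w : ℂ)) * q r + (r / 2) * deriv q r

/-- The explicit symmetry mode, second component. -/
noncomputable def sG (m : ℕ) (w : ℝ) (q : ℝ → ℂ) (lam : ℂ) (r : ℝ) : ℂ := conj (sF m w q lam r)

theorem radMode_of_sym {m l : ℕ} {w : ℝ} {q : ℝ → ℂ} {lam : ℂ} {F G : ℝ → ℂ} (hs : SymV l lam)
    {c : ℂ} (h : ∀ r > 0, F r = c * sF m w q lam r ∧ G r = c * sG m w q lam r) :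
    RadMode m l w q lam F G := by
  rcases hs with ⟨hl, hl0 | hl1⟩ | ⟨hl, hl2⟩
  · subst hl0
    refine Or.inl ⟨hl, rfl, c, fun r hr => ?_⟩
    simpa [sF, sG] using h r hr
  · subst hl1
    refine Or.inr (Or.inr (Or.inl ⟨hl, rfl, c, fun r hr => ?_⟩))
    have h1 : ¬ (1 : ℂ) = 0 := one_ne_zero
    have h2 : ¬ (1 : ℂ) = 1 / 2 := by norm_num
    have := h r hr
    simp only [sF, sG, if_neg h1, if_neg h2] at this
    exact this
  · subst hl2
    refine Or.inr (Or.inl ⟨hl, rfl, c, fun r hr => ?_⟩)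
    have h1 : ¬ (1 / 2 : ℂ) = 0 := by norm_num
    have := h r hr
    simp only [sF, sG, if_neg h1, if_true] at this
    exact this

theorem radMode_sym {m l : ℕ} {w : ℝ} {q : ℝ → ℂ} {lam : ℂ} {F G : ℝ → ℂ}
    (h : RadMode m l w q lam F G) :
    ∃ c : ℂ, ∀ r > 0, F r = c * sF m w q lam r ∧ G r = c * sG m w q lam r := by
  rcases h with ⟨-, hlam, c, h⟩ | ⟨-, hlam, c, h⟩ | ⟨-, hlam, c, h⟩ | h
  · subst hlam
    exact ⟨c, fun r hr => by simpa [sF, sG] using h r hr⟩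
  · subst hlam
    refine ⟨c, fun r hr => ?_⟩
    have h1 : ¬ (1 / 2 : ℂ) = 0 := by norm_num
    simp only [sF, sG, if_neg h1, if_true]
    exact h r hr
  · subst hlam
    refine ⟨c, fun r hr => ?_⟩
    have h1 : ¬ (1 : ℂ) = 0 := one_ne_zero
    have h2 : ¬ (1 : ℂ) = 1 / 2 := by norm_num
    simp only [sF, sG, if_neg h1, if_neg h2]
    exact h r hr
  · exact ⟨0, fun r hr => by simpa using h r hr⟩

theorem radMode_not_sym {m l : ℕ} {w : ℝ} {q : ℝ → ℂ} {lam : ℂ} {F G : ℝ → ℂ}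
    (hs : ¬ SymV l lam) (h : RadMode m l w q lam F G) : ∀ r > 0, F r = 0 ∧ G r = 0 := by
  rcases h with ⟨hl, hlam, -⟩ | ⟨hl, hlam, -⟩ | ⟨hl, hlam, -⟩ | h
  · exact absurd (Or.inl ⟨hl, Or.inl hlam⟩) hs
  · exact absurd (Or.inr ⟨hl, hlam⟩) hs
  · exact absurd (Or.inl ⟨hl, Or.inr hlam⟩) hs
  · exact h

/-! ### Linear combinations -/

theorem radAdm_comb {K : ℕ} {F φ : ℝ → ℂ} (hF : RadAdm K F) (hφ : RadAdm K φ) (k : ℂ) :
    RadAdm K (fun r => F r - k * φ r) where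
  smooth := hF.smooth.sub (contDiffOn_const.mul hφ.smooth)
  bdd0 := by
    obtain ⟨C1, h1⟩ := hF.bdd0
    obtain ⟨C2, h2⟩ := hφ.bdd0
    refine ⟨C1 + ‖k‖ * C2, fun r hr => (norm_sub_le _ _).trans ?_⟩
    rw [norm_mul]
    exact add_le_add (h1 r hr) (mul_le_mul_of_nonneg_left (h2 r hr) (norm_nonneg _))
  bddinf := by
    intro n hn
    obtain ⟨C1, h1⟩ := hF.bddinf n hn
    obtain ⟨C2, h2⟩ := hφ.bddinf n hn
    refine ⟨C1 + ‖k‖ * C2, fun r hr => ?_⟩
    have hr0 : r ∈ Ioi (0 : ℝ) := by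
      rw [mem_Ioi]; linarith
    have c1 : ContDiffAt ℝ n F r :=
      (hF.smooth.contDiffAt (isOpen_Ioi.mem_nhds hr0)).of_le (by exact_mod_cast hn)
    have c2 : ContDiffAt ℝ n φ r :=
      (hφ.smooth.contDiffAt (isOpen_Ioi.mem_nhds hr0)).of_le (by exact_mod_cast hn)
    have c3 : ContDiffAt ℝ n (fun z => k * φ z) r := contDiffAt_const.mul c2
    have e : iteratedDeriv n (fun r => F r - k * φ r) r
        = iteratedDeriv n F r - k * iteratedDeriv n φ r := by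
      have e1 := iteratedDeriv_sub c1 c3
      rw [iteratedDeriv_const_mul k c2] at e1
      exact e1
    rw [e]
    refine (norm_sub_le _ _).trans ?_
    rw [norm_mul]
    exact add_le_add (h1 r hr) (mul_le_mul_of_nonneg_left (h2 r hr) (norm_nonneg _))

theorem deriv_comb {F φ : ℝ → ℂ} (hF : ContDiffOn ℝ 2 F (Ioi 0)) (hφ : ContDiffOn ℝ 2 φ (Ioi 0))
    (k : ℂ) {r : ℝ} (hr : 0 < r) :
    deriv (fun r => F r - k * φ r) r = deriv F r - k * deriv φ r ∧
      deriv (deriv (fun r => F r - k * φ r)) r = deriv (deriv F) r - k * deriv (deriv φ) r := by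
  have h1 : ∀ s > 0, HasDerivAt (fun r => F r - k * φ r) (deriv F s - k * deriv φ s) s :=
    fun s hs => (hasDeriv_of_C2 hF hs).1.sub ((hasDeriv_of_C2 hφ hs).1.const_mul k)
  have h2 : HasDerivAt (fun s => deriv F s - k * deriv φ s)
      (deriv (deriv F) r - k * deriv (deriv φ) r) r :=
    (hasDeriv_of_C2 hF hr).2.sub ((hasDeriv_of_C2 hφ hr).2.const_mul k)
  refine ⟨(h1 r hr).deriv, ?_⟩
  have e : deriv (fun r => F r - k * φ r) =ᶠ[𝓝 r] fun s => deriv F s - k * deriv φ s :=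
    eventuallyEq_of_mem (isOpen_Ioi.mem_nhds hr) fun s hs => (h1 s hs).deriv
  rw [e.deriv_eq, h2.deriv]

theorem RL_comb {d m l : ℕ} {w : ℝ} {q F G φ γ : ℝ → ℂ} (hF : ContDiffOn ℝ 2 F (Ioi 0))
    (hG : ContDiffOn ℝ 2 G (Ioi 0)) (hφ : ContDiffOn ℝ 2 φ (Ioi 0))
    (hγ : ContDiffOn ℝ 2 γ (Ioi 0)) (k : ℂ) {r : ℝ} (hr : 0 < r) :
    RL1 d m l w q (fun r => F r - k * φ r) (fun r => G r - k * γ r) r
        = RL1 d m l w q F G r - k * RL1 d m l w q φ γ r ∧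
      RL2 d m l w q (fun r => F r - k * φ r) (fun r => G r - k * γ r) r
        = RL2 d m l w q F G r - k * RL2 d m l w q φ γ r := by
  obtain ⟨a1, a2⟩ := deriv_comb hF hφ k hr
  obtain ⟨b1, b2⟩ := deriv_comb hG hγ k hr
  constructor
  · simp only [RL1, lapl, a1, a2]
    ring
  · simp only [RL2, lapl, b1, b2]
    ring

/-! ### Data at a fixed radius -/

/-- The function without the factor `r ^ l`. -/
noncomputable def red (l : ℕ) (F : ℝ → ℂ) (t : ℝ) : ℂ := F t / (t : ℂ) ^ l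

/-- Inner product of the data at radius `b`. -/
noncomputable def ip (l : ℕ) (b : ℝ) (F G φ γ : ℝ → ℂ) : ℂ :=
  red l F b * conj (red l φ b) + deriv (red l F) b * conj (deriv (red l φ) b)
    + red l G b * conj (red l γ b) + deriv (red l G) b * conj (deriv (red l γ) b)

theorem hasDerivAt_red {F : ℝ → ℂ} (hF : ContDiffOn ℝ 2 F (Ioi 0)) (l : ℕ) {b : ℝ} (hb : 0 < b) :
    HasDerivAt (red l F) ((deriv F b * (b : ℂ) ^ l - F b * ((l : ℂ) * (b : ℂ) ^ (l - 1)))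
      / ((b : ℂ) ^ l) ^ 2) b := by
  have hb0 : (b : ℂ) ^ l ≠ 0 := pow_ne_zero _ (by exact_mod_cast hb.ne')
  exact (hasDeriv_of_C2 hF hb).1.div (((hasDerivAt_pow l (b : ℂ))).comp_ofReal) hb0

theorem red_comb {F φ : ℝ → ℂ} (hF : ContDiffOn ℝ 2 F (Ioi 0)) (hφ : ContDiffOn ℝ 2 φ (Ioi 0))
    (l : ℕ) (k : ℂ) {b : ℝ} (hb : 0 < b) :
    red l (fun r => F r - k * φ r) b = red l F b - k * red l φ b ∧
      deriv (red l (fun r => F r - k * φ r)) b = deriv (red l F) b - k * deriv (red l φ) b := by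
  have e : red l (fun r => F r - k * φ r) = fun r => red l F r - k * red l φ r := by
    funext r
    simp only [red]
    ring
  refine ⟨by rw [e], ?_⟩
  rw [e]
  have h := (hasDerivAt_red hF l hb).sub ((hasDerivAt_red hφ l hb).const_mul k)
  rw [(hasDerivAt_red hF l hb).deriv, (hasDerivAt_red hφ l hb).deriv]
  exact h.deriv

theorem ip_comb {F G φ γ : ℝ → ℂ} (hF : ContDiffOn ℝ 2 F (Ioi 0))
    (hG : ContDiffOn ℝ 2 G (Ioi 0)) (hφ : ContDiffOn ℝ 2 φ (Ioi 0))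
    (hγ : ContDiffOn ℝ 2 γ (Ioi 0)) (l : ℕ) (k : ℂ) {b : ℝ} (hb : 0 < b) :
    ip l b (fun r => F r - k * φ r) (fun r => G r - k * γ r) φ γ
      = ip l b F G φ γ - k * ip l b φ γ φ γ := by
  obtain ⟨a1, a2⟩ := red_comb hF hφ l k hb
  obtain ⟨b1, b2⟩ := red_comb hG hγ l k hb
  simp only [ip, a1, a2, b1, b2]
  ring

theorem ip_self_ne {φ γ : ℝ → ℂ} (hφ : ContDiffOn ℝ 2 φ (Ioi 0)) (hγ : ContDiffOn ℝ 2 γ (Ioi 0))
    {l : ℕ} {b : ℝ} (hb : 0 < b)
    (h : ¬ (φ b = 0 ∧ deriv φ b = 0 ∧ γ b = 0 ∧ deriv γ b = 0)) : ip l b φ γ φ γ ≠ 0 := by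
  intro h0
  have hb0 : (b : ℂ) ^ l ≠ 0 := pow_ne_zero _ (by exact_mod_cast hb.ne')
  have e : ip l b φ γ φ γ = ((‖red l φ b‖ ^ 2 + ‖deriv (red l φ) b‖ ^ 2 + ‖red l γ b‖ ^ 2
      + ‖deriv (red l γ) b‖ ^ 2 : ℝ) : ℂ) := by
    simp only [ip, Complex.mul_conj, Complex.normSq_eq_norm_sq]
    push_cast
    ring
  rw [e] at h0
  have h1 : ‖red l φ b‖ ^ 2 + ‖deriv (red l φ) b‖ ^ 2 + ‖red l γ b‖ ^ 2
      + ‖deriv (red l γ) b‖ ^ 2 = 0 := by exact_mod_cast h0
  have p1 : 0 ≤ ‖red l φ b‖ ^ 2 := by positivity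
  have p2 : 0 ≤ ‖deriv (red l φ) b‖ ^ 2 := by positivity
  have p3 : 0 ≤ ‖red l γ b‖ ^ 2 := by positivity
  have p4 : 0 ≤ ‖deriv (red l γ) b‖ ^ 2 := by positivity
  have q1 : red l φ b = 0 := by
    have : ‖red l φ b‖ ^ 2 = 0 := by linarith
    simpa using this
  have q2 : deriv (red l φ) b = 0 := by
    have : ‖deriv (red l φ) b‖ ^ 2 = 0 := by linarith
    simpa using this
  have q3 : red l γ b = 0 := by
    have : ‖red l γ b‖ ^ 2 = 0 := by linarith
    simpa using this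
  have q4 : deriv (red l γ) b = 0 := by
    have : ‖deriv (red l γ) b‖ ^ 2 = 0 := by linarith
    simpa using this
  have key : ∀ {φ : ℝ → ℂ}, ContDiffOn ℝ 2 φ (Ioi 0) → red l φ b = 0 → deriv (red l φ) b = 0 →
      φ b = 0 ∧ deriv φ b = 0 := by
    intro φ hφ h1 h2
    have h3 : φ b = 0 := by
      simp only [red] at h1
      exact (div_eq_zero_iff.1 h1).resolve_right hb0
    refine ⟨h3, ?_⟩
    rw [(hasDerivAt_red hφ l hb).deriv, h3, zero_mul, sub_zero] at h2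
    have h4 := (div_eq_zero_iff.1 h2).resolve_right (pow_ne_zero _ hb0)
    exact (mul_eq_zero.1 h4).resolve_right hb0
  obtain ⟨r1, r2⟩ := key hφ q1 q2
  obtain ⟨r3, r4⟩ := key hγ q3 q4
  exact h ⟨r1, r2, r3, r4⟩

/-! ### The reductions -/

/-- Violation away from the symmetric values: a nonzero eigenpair. -/
theorem viol_not_sym {d m K l : ℕ} {w : ℝ} {q : ℝ → ℂ} {lam : ℂ} (hs : ¬ SymV l lam)
    (hbad : ¬ (EigAt d m K w q l lam ∧ JorAt d m K w q l lam)) :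
    ∃ F G : ℝ → ℂ, RadAdm K F ∧ RadAdm K G ∧ (∀ r > 0, RL1 d m l w q F G r = lam * F r) ∧
      (∀ r > 0, RL2 d m l w q F G r = lam * G r) ∧ ¬ ∀ r > 0, F r = 0 ∧ G r = 0 := by
  have hJ : JorAt d m K w q l lam := fun F G F0 G0 _ _ h0 _ _ => radMode_not_sym hs h0
  have hE : ¬ EigAt d m K w q l lam := fun h => hbad ⟨h, hJ⟩
  simp only [EigAt] at hE
  push Not at hE
  obtain ⟨F, G, hF, hG, e1, e2, hm⟩ := hE
  exact ⟨F, G, hF, hG, e1, e2, fun h => hm (Or.inr (Or.inr (Or.inr h)))⟩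

/-- Removing the component along the symmetry mode. -/
theorem proj {d m K l : ℕ} {w : ℝ} {q : ℝ → ℂ} {lam lam0 c0 : ℂ} (hK : 2 ≤ K)
    {F G φ γ : ℝ → ℂ} (hF : RadAdm K F) (hG : RadAdm K G) (hφ : RadAdm K φ) (hγ : RadAdm K γ)
    (h0 : RSol d m l w q lam0 0 φ γ φ γ) (h1 : RSol d m l w q lam c0 F G φ γ)
    {b : ℝ} (hb : 0 < b) (hne : ip l b φ γ φ γ ≠ 0) :
    ∃ k : ℂ, RadAdm K (fun r => F r - k * φ r) ∧ RadAdm K (fun r => G r - k * γ r) ∧
      RSol d m l w q lam (c0 + k * (lam - lam0)) (fun r => F r - k * φ r)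
        (fun r => G r - k * γ r) φ γ ∧
      ip l b (fun r => F r - k * φ r) (fun r => G r - k * γ r) φ γ = 0 := by
  have s1 : ContDiffOn ℝ 2 F (Ioi 0) := hF.smooth.of_le (by exact_mod_cast hK)
  have s2 : ContDiffOn ℝ 2 G (Ioi 0) := hG.smooth.of_le (by exact_mod_cast hK)
  have s3 : ContDiffOn ℝ 2 φ (Ioi 0) := hφ.smooth.of_le (by exact_mod_cast hK)
  have s4 : ContDiffOn ℝ 2 γ (Ioi 0) := hγ.smooth.of_le (by exact_mod_cast hK)
  refine ⟨ip l b F G φ γ / ip l b φ γ φ γ, radAdm_comb hF hφ _, radAdm_comb hG hγ _,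
    ⟨fun r hr => ?_, fun r hr => ?_⟩, ?_⟩
  · rw [(RL_comb s1 s2 s3 s4 _ hr).1, h1.e1 r hr, h0.e1 r hr]
    ring
  · rw [(RL_comb s1 s2 s3 s4 _ hr).2, h1.e2 r hr, h0.e2 r hr]
    ring
  · rw [ip_comb s1 s2 s3 s4 l _ hb, div_mul_cancel₀ _ hne, sub_self]

/-- Violation near a symmetric value: a solution of the problem with source along the symmetry
mode, orthogonal to it. -/
theorem viol_sym {d m K l : ℕ} {w : ℝ} {q : ℝ → ℂ} {lam lam0 : ℂ} (hK : 2 ≤ K)
    (hq : ContinuousOn q (Ioi 0)) (hs : SymV l lam0) (hlam : lam = lam0 ∨ ¬ SymV l lam)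
    (hφ : RadAdm K (sF m w q lam0)) (hγ : RadAdm K (sG m w q lam0))
    (h0 : RSol d m l w q lam0 0 (sF m w q lam0) (sG m w q lam0) (sF m w q lam0) (sG m w q lam0))
    (hne : ¬ ∀ r > 0, sF m w q lam0 r = 0) {b : ℝ} (hb : 0 < b)
    (hbad : ¬ (EigAt d m K w q l lam ∧ JorAt d m K w q l lam)) :
    ∃ (F G : ℝ → ℂ) (c : ℂ), RadAdm K F ∧ RadAdm K G ∧
      RSol d m l w q lam c F G (sF m w q lam0) (sG m w q lam0) ∧
      ip l b F G (sF m w q lam0) (sG m w q lam0) = 0 ∧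
      (c = 0 → ¬ ∀ r > 0, F r = 0 ∧ G r = 0) := by
  have s3 : ContDiffOn ℝ 2 (sF m w q lam0) (Ioi 0) := hφ.smooth.of_le (by exact_mod_cast hK)
  have s4 : ContDiffOn ℝ 2 (sG m w q lam0) (Ioi 0) := hγ.smooth.of_le (by exact_mod_cast hK)
  have hip : ip l b (sF m w q lam0) (sG m w q lam0) (sF m w q lam0) (sG m w q lam0) ≠ 0 := by
    refine ip_self_ne s3 s4 hb fun h => hne fun r hr => ?_
    exact (uc_data hq s3 s4 (fun r hr => by simpa using h0.e1 r hr)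
      (fun r hr => by simpa using h0.e2 r hr) hb h.1 h.2.1 h.2.2.1 h.2.2.2 r hr).1
  by_cases hE : EigAt d m K w q l lam
  · -- Jordan block
    have hJ : ¬ JorAt d m K w q l lam := fun h => hbad ⟨hE, h⟩
    simp only [JorAt] at hJ
    push Not at hJ
    obtain ⟨F, G, F0, G0, hF, hG, hm, e1, e2, r0, hr0, hne0⟩ := hJ
    have hl : lam = lam0 := by
      rcases hlam with h | h
      · exact h
      · exact absurd (radMode_not_sym h hm r0 hr0).2 (hne0 (radMode_not_sym h hm r0 hr0).1)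
    subst hl
    obtain ⟨c0, hc0⟩ := radMode_sym hm
    have hc0ne : c0 ≠ 0 := by
      rintro rfl
      have := hc0 r0 hr0
      simp only [zero_mul] at this
      exact hne0 this.1 this.2
    obtain ⟨k, k1, k2, k3, k4⟩ := proj hK hF hG hφ hγ h0
      (⟨fun r hr => by rw [e1 r hr, (hc0 r hr).1], fun r hr => by rw [e2 r hr, (hc0 r hr).2]⟩ :
        RSol d m l w q lam c0 F G (sF m w q lam) (sG m w q lam)) hb hip
    refine ⟨_, _, _, k1, k2, k3, k4, fun h => ?_⟩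
    rw [sub_self, mul_zero, add_zero] at h
    exact absurd h hc0ne
  · simp only [EigAt] at hE
    push Not at hE
    obtain ⟨F, G, hF, hG, e1, e2, hm⟩ := hE
    obtain ⟨k, k1, k2, k3, k4⟩ := proj hK hF hG hφ hγ h0
      (⟨fun r hr => by rw [e1 r hr]; ring, fun r hr => by rw [e2 r hr]; ring⟩ :
        RSol d m l w q lam 0 F G (sF m w q lam0) (sG m w q lam0)) hb hip
    refine ⟨_, _, _, k1, k2, k3, k4, fun h hz => hm ?_⟩
    have hz' : ∀ r > 0, F r = k * sF m w q lam0 r ∧ G r = k * sG m w q lam0 r := fun r hr =>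
      ⟨sub_eq_zero.1 (hz r hr).1, sub_eq_zero.1 (hz r hr).2⟩
    rw [zero_add] at h
    rcases mul_eq_zero.1 h with hk | hl
    · subst hk
      exact Or.inr (Or.inr (Or.inr fun r hr => by simpa using hz' r hr))
    · have hl' : lam = lam0 := sub_eq_zero.1 hl
      subst hl'
      exact radMode_of_sym hs hz'

/-! ### Sequences of spectral parameters -/

theorem eventually_not_symV {l : ℕ} {lam : ℕ → ℂ} {lam0 : ℂ} (h : Tendsto lam atTop (𝓝 lam0))
    (hs : ¬ SymV l lam0) : ∀ᶠ j in atTop, ¬ SymV l (lam j) := by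
  have h1 : ∀ z : ℂ, lam0 ≠ z → ∀ᶠ j in atTop, lam j ≠ z := fun z hz => h.eventually_ne hz
  simp only [SymV, not_or, not_and] at hs ⊢
  have e1 : ∀ᶠ j in atTop, l = 0 → lam j ≠ 0 ∧ lam j ≠ 1 := by
    by_cases hl : l = 0
    · filter_upwards [h1 0 (hs.1 hl).1, h1 1 (hs.1 hl).2] with j a b _ using ⟨a, b⟩
    · exact Eventually.of_forall fun j hl' => absurd hl' hl
  have e2 : ∀ᶠ j in atTop, l = 1 → lam j ≠ 1 / 2 := by
    by_cases hl : l = 1
    · filter_upwards [h1 (1 / 2) (hs.2 hl)] with j a _ using a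
    · exact Eventually.of_forall fun j hl' => absurd hl' hl
  filter_upwards [e1, e2] with j a b using ⟨a, b⟩

theorem eventually_symV {l : ℕ} {lam : ℕ → ℂ} {lam0 : ℂ} (h : Tendsto lam atTop (𝓝 lam0))
    (hs : SymV l lam0) : ∀ᶠ j in atTop, lam j = lam0 ∨ ¬ SymV l (lam j) := by
  have h1 : ∀ z : ℂ, lam0 ≠ z → ∀ᶠ j in atTop, lam j ≠ z := fun z hz => h.eventually_ne hz
  rcases hs with ⟨hl, h0 | h0⟩ | ⟨hl, h0⟩
  · subst hl h0
    filter_upwards [h1 1 (by norm_num)] with j a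
    by_cases hj : lam j = 0
    · exact Or.inl hj
    · refine Or.inr fun hs => ?_
      rcases hs with ⟨-, hs | hs⟩ | ⟨hs, -⟩
      · exact hj hs
      · exact a hs
      · exact absurd hs (by norm_num)
  · subst hl h0
    filter_upwards [h1 0 (by norm_num)] with j a
    by_cases hj : lam j = 1
    · exact Or.inl hj
    · refine Or.inr fun hs => ?_
      rcases hs with ⟨-, hs | hs⟩ | ⟨hs, -⟩
      · exact a hs
      · exact hj hs
      · exact absurd hs (by norm_num)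
  · subst hl h0
    refine Eventually.of_forall fun j => ?_
    by_cases hj : lam j = 1 / 2
    · exact Or.inl hj
    · refine Or.inr fun hs => ?_
      rcases hs with ⟨hs, -⟩ | ⟨-, hs⟩
      · exact absurd hs (by norm_num)
      · exact hj hs

end Vale.Agent.P139.H700
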