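import Vale.Agent.P139.H700.RMode

/-!
# P139 / H700 : the radial symmetry modes of a member of the family `UP` (helper700)
-/

open scoped ComplexConjugate ContDiff Topology
open Complex Filter Set

namespace Vale.Agent.P139.H700

open Vale.Agent.P139.BU Vale.Agent.P139.H311

variable {d m : ℕ} {w : ℝ} {q : ℝ → ℂ}

theorem sF_zero : sF m w q 0 = fun r => I * q r := by
  funext r; simp [sF]

theorem sF_half : sF m w q (1 / 2) = deriv q := by
  funext r
  have h1 : ¬ (1 / 2 : ℂ) = 0 := by norm_num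
  simp only [sF, if_neg h1, if_true]

theorem sF_one : sF m w q 1 =
    fun r : ℝ => ((aa m : ℂ) - I * (w : ℂ)) * q r + (r / 2) * deriv q r := by
  funext r
  have h1 : ¬ (1 : ℂ) = 0 := one_ne_zero
  have h2 : ¬ (1 : ℂ) = 1 / 2 := by norm_num
  simp only [sF, if_neg h1, if_neg h2]

theorem sG_eq (lam : ℂ) : sG m w q lam = fun r => conj (sF m w q lam r) := rfl

theorem symV_real {l : ℕ} {lam : ℂ} (h : SymV l lam) : conj lam = lam := by
  rcases h with ⟨-, h | h⟩ | ⟨-, h⟩
  · rw [h, map_zero]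
  · rw [h, map_one]
  · rw [h, Complex.conj_eq_iff_im]; norm_num

theorem symV_re {l : ℕ} {lam : ℂ} (h : SymV l lam) : 0 ≤ lam.re ∧ ‖lam‖ ≤ 1 := by
  rcases h with ⟨-, h | h⟩ | ⟨-, h⟩
  · rw [h]; norm_num
  · rw [h]; norm_num
  · rw [h]; norm_num

theorem RL1_sF (P : Prof d m w q) {l : ℕ} {lam : ℂ} (hs : SymV l lam) {r : ℝ} (hr : 0 < r) :
    RL1 d m l w q (sF m w q lam) (sG m w q lam) r = lam * sF m w q lam r := by
  rcases hs with ⟨hl, h | h⟩ | ⟨hl, h⟩
  · subst hl h
    rw [sG_eq, sF_zero, RL1_phase P hr, zero_mul]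
  · subst hl h
    rw [sG_eq, sF_one, RL1_time P hr, one_mul]
  · subst hl h
    rw [sG_eq, sF_half]
    exact RL1_trans P hr

theorem rSol_sF (P : Prof d m w q) {l : ℕ} {lam : ℂ} (hs : SymV l lam) :
    RSol d m l w q lam 0 (sF m w q lam) (sG m w q lam) (sF m w q lam) (sG m w q lam) where
  e1 := fun r hr => by rw [RL1_sF P hs hr, zero_mul, add_zero]
  e2 := fun r hr => by
    have h := RL2_conj (d := d) (m := m) (w := w) (q := q) (l := l) (sF m w q lam) r
    rw [← sG_eq, RL1_sF P hs hr, map_mul, symV_real hs] at h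
    rw [h, zero_mul, add_zero]
    rfl

theorem radAdm_sF (P : Prof d m w q) (h : Sym1 q) (lam : ℂ) (K : ℕ) :
    RadAdm K (sF m w q lam) := by
  have hq : RadAdm K q := h.radAdm P.smooth K
  by_cases h0 : lam = 0
  · subst h0
    rw [sF_zero]
    have := radAdm_comb (radAdm_zero K) hq (-I)
    have e : (fun r => I * q r) = fun r => (fun _ : ℝ => (0 : ℂ)) r - (-I) * q r := by
      funext r; ring
    rw [e]; exact this
  · by_cases h1 : lam = 1 / 2
    · subst h1
      rw [sF_half]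
      exact h.radAdm_deriv P.smooth K
    · have e : sF m w q lam = fun r : ℝ => (r / 2 : ℂ) * deriv q r - (-((aa m : ℂ) - I * (w : ℂ))) * q r := by
        funext r
        simp only [sF, if_neg h0, if_neg h1]
        ring
      rw [e]
      exact radAdm_comb (h.radAdm_mul P.smooth K) hq _

theorem radAdm_sG (P : Prof d m w q) (h : Sym1 q) (lam : ℂ) (K : ℕ) :
    RadAdm K (sG m w q lam) := RadAdm.conj (radAdm_sF P h lam K)

theorem sF_ne (P : Prof d m w q) (hne : ∀ r, q r ≠ 0) {l : ℕ} {lam : ℂ} (hs : SymV l lam) :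
    ¬ ∀ r > 0, sF m w q lam r = 0 := by
  intro h
  have ha : (0 : ℝ) < aa m := by
    have : (0 : ℝ) < m := by exact_mod_cast P.hm
    unfold aa; positivity
  rcases hs with ⟨-, h0 | h0⟩ | ⟨-, h0⟩
  · subst h0
    rw [sF_zero] at h
    have := h 1 one_pos
    simp only [mul_eq_zero, Complex.I_ne_zero, false_or] at this
    exact hne 1 this
  · subst h0
    rw [sF_one] at h
    -- continuity at `0`
    have hc : Continuous (fun r : ℝ => ((aa m : ℂ) - I * (w : ℂ)) * q r + (r / 2) * deriv q r) :=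
      (continuous_const.mul P.smooth.continuous).add
        ((Complex.continuous_ofReal.div_const 2).mul (smooth_deriv' P.smooth).continuous)
    have h1 : Tendsto (fun r : ℝ => ((aa m : ℂ) - I * (w : ℂ)) * q r + (r / 2) * deriv q r)
        (𝓝[>] 0) (𝓝 (((aa m : ℂ) - I * (w : ℂ)) * q 0 + ((0 : ℝ) / 2) * deriv q 0)) :=
      (hc.tendsto 0).mono_left nhdsWithin_le_nhds
    have h2 : Tendsto (fun r : ℝ => ((aa m : ℂ) - I * (w : ℂ)) * q r + (r / 2) * deriv q r)
        (𝓝[>] 0) (𝓝 0) := by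
      refine Tendsto.congr' ?_ tendsto_const_nhds
      filter_upwards [self_mem_nhdsWithin] with r hr
      exact (h r hr).symm
    have h3 := tendsto_nhds_unique h1 h2
    have h4 : ((aa m : ℂ) - I * (w : ℂ)) * q 0 = 0 := by simpa using h3
    have h5 := (mul_eq_zero.1 h4).resolve_right (hne 0)
    have h6 := congrArg Complex.re h5
    simp at h6
    exact ha.ne' h6
  · subst h0
    rw [sF_half] at h
    have h1 : deriv (deriv q) 1 = 0 := by
      have : deriv q =ᶠ[𝓝 1] fun _ => 0 :=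
        eventuallyEq_of_mem (isOpen_Ioi.mem_nhds one_pos) fun s hs => h s hs
      rw [this.deriv_eq]; simp
    have h2 := P.e2 one_pos
    rw [h1, h 1 one_pos] at h2
    have h3 : ((w : ℂ) + I * (aa m : ℂ) - W1 m (q 1)) * q 1 = 0 := by linear_combination h2
    have h4 := (mul_eq_zero.1 h3).resolve_right (hne 1)
    have h5 := congrArg Complex.im h4
    have h6 : (W1 m (q 1)).im = 0 := Complex.conj_eq_iff_im.1 (W1_conj' (q 1))
    simp [h6] at h5
    exact ha.ne' h5

/-! ### The family -/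

variable {B : Set (ℝ × ℝ)} {m0 : ℕ} {ws Rs : ℕ → ℝ} {qs : ℕ → ℝ → ℂ}

theorem UP_prof (h : UP d B m0 ws Rs qs) {m : ℕ} (hm : m0 ≤ m) : Prof d m (ws m) (qs m) where
  hm := h.m0_pos.trans hm
  smooth := by
    obtain ⟨g, hg, hq⟩ := h.rad m hm
    have e : qs m = fun r => g (r ^ 2) := funext hq
    rw [e]
    exact hg.comp (contDiff_id.pow 2)
  ode := h.ode m hm

/-- Everything about the symmetry modes of a member of the family. -/
theorem UP_modes (h : UP d B m0 ws Rs qs) (hd : 0 < d) {m : ℕ} (hm : m0 ≤ m) {l : ℕ} {lam : ℂ}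
    (hs : SymV l lam) :
    (∀ K, RadAdm K (sF m (ws m) (qs m) lam)) ∧ (∀ K, RadAdm K (sG m (ws m) (qs m) lam)) ∧
      RSol d m l (ws m) (qs m) lam 0 (sF m (ws m) (qs m) lam) (sG m (ws m) (qs m) lam)
        (sF m (ws m) (qs m) lam) (sG m (ws m) (qs m) lam) ∧
      ¬ ∀ r > 0, sF m (ws m) (qs m) lam r = 0 := by
  have P := UP_prof h hm
  have hS : Sym1 (qs m) := sym1_of_profile hd (h.prof m hm)
  exact ⟨radAdm_sF P hS lam, radAdm_sG P hS lam, rSol_sF P hs, sF_ne P (h.ne m hm) hs⟩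

/-- Violation near a symmetric value, for a member of the family. -/
theorem UP_viol_sym (h : UP d B m0 ws Rs qs) (hd : 0 < d) {m : ℕ} (hm : m0 ≤ m) {K l : ℕ}
    (hK : 2 ≤ K) {lam lam0 : ℂ} (hs : SymV l lam0) (hlam : lam = lam0 ∨ ¬ SymV l lam)
    {b : ℝ} (hb : 0 < b)
    (hbad : ¬ (EigAt d m K (ws m) (qs m) l lam ∧ JorAt d m K (ws m) (qs m) l lam)) :
    ∃ (F G : ℝ → ℂ) (c : ℂ), RadAdm K F ∧ RadAdm K G ∧
      RSol d m l (ws m) (qs m) lam c F G (sF m (ws m) (qs m) lam0) (sG m (ws m) (qs m) lam0) ∧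
      ip l b F G (sF m (ws m) (qs m) lam0) (sG m (ws m) (qs m) lam0) = 0 ∧
      (c = 0 → ¬ ∀ r > 0, F r = 0 ∧ G r = 0) := by
  obtain ⟨h1, h2, h3, h4⟩ := UP_modes h hd hm hs
  exact viol_sym hK (UP_prof h hm).smooth.continuous.continuousOn hs hlam (h1 K) (h2 K) h3 h4 hb hbad

end Vale.Agent.P139.H700
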