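import Vale.Agent.P139.H700.Asm
import Vale.Agent.P139.H311.KeyUP
import Vale.Agent.P139.H745.ExtS

/-!
# P139 / H700 : assembly of `RadStable`, continued (helper700)
-/

open scoped ComplexConjugate ContDiff Topology
open Complex Filter Set

namespace Vale.Agent.P139.H700

open Vale.Agent.P139.BU Vale.Agent.P139.H311 Vale.Agent.P139.KU

theorem keyStmt_of_UP {d : ℕ} (hd : 3 ≤ d) {B : Set (ℝ × ℝ)} {m0 : ℕ} {w R : ℕ → ℝ}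
    {q : ℕ → ℝ → ℂ} (U : UP d B m0 w R q) {b : ℝ} (hb : ∀ m, m0 ≤ m → R m + 1 ≤ b) (l : ℕ)
    (L0 : ℝ) : H694.KeyStmt d w R q b l L0 := by
  obtain ⟨Cs, hCs, H⟩ := key_UP hd U hb l L0
  refine ⟨Cs, hCs, fun ε hε => ?_⟩
  obtain ⟨η0, hη0, H1⟩ := H ε hε
  refine ⟨η0, hη0, fun η hη hle => ?_⟩
  obtain ⟨m1, ε', hε', H2⟩ := H1 η hη hle
  refine ⟨m1, ε', hε', ?_⟩
  intro m hm K hK lam lam0 h1 h2 h3 h4 F G φ γ c hF hG hφ hγ s0 s1 α β α0 β0 c1 c2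
  obtain ⟨⟨k1, k2⟩, ⟨k3, k4⟩, ⟨k5, k6⟩⟩ := H2 m hm K hK lam lam0 h1 h2 h3 h4 F G φ γ c hF hG hφ hγ
    s0 s1 α β α0 β0 c1 c2
  exact ⟨k1, k2, k3, k4, k5, k6⟩

/-- Radial mode stability from [S1], the exterior description `ExtJ` and the certificate. -/
theorem radStable_of_S1_ExtJ {d : ℕ} (hd : 3 ≤ d) {B : Set (ℝ × ℝ)} {m0 : ℕ} {w R : ℕ → ℝ}
    {q : ℕ → ℝ → ℂ} (h : UP d B m0 w R q) (hB : IsClosed B)
    (hcert : ∀ w R : ℝ, (w, R) ∈ B → 0 < w → 0 < R → Qinf' d w R = 0 → H694.CertGood d w R)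
    {K : ℕ} (hK : 2 ≤ K) (hS1 : H607.S1Out d K w q) (hJ : H901.ExtJ d K w R q) :
    ∃ m1 : ℕ, ∀ m, m1 ≤ m → ∃ K : ℕ, RadStable d m K (w m) (q m) := by
  refine radStable_of_blocks (by omega) h hB hcert hK hS1 (fun b hb => ?_)
    (fun b hb l L0 => keyStmt_of_UP hd h hb l L0)
  exact H745.UP.ext_of_extJ h (by omega) ⟨0, fun m _ => le_rfl⟩ hb hJ

end Vale.Agent.P139.H700
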