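import Vale.Agent.P139.H694.S2Glue
import Vale.Agent.P139.H607.S1Spec
import Vale.Agent.P139.H700.RMode2

/-!
# P139 / H700 : assembly of `RadStable` from the outputs of the blocks (helper700)
-/

open scoped ComplexConjugate ContDiff Topology
open Complex Filter Set

namespace Vale.Agent.P139.H700

open Vale.Agent.P139.BU Vale.Agent.P139.H311 Vale.Agent.P139.KU

theorem le_gL {d : ℕ} (hd : 2 ≤ d) (l : ℕ) : (l : ℝ) ≤ H498.gL d l := by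
  unfold H498.gL
  have hd' : (2 : ℝ) ≤ d := by exact_mod_cast hd
  rcases Nat.eq_zero_or_pos l with h | h
  · subst h; simp
  · have h1 : (1 : ℝ) ≤ l := by exact_mod_cast h
    nlinarith

/-- 607's output of [S1] in the form of `S1Out`. -/
theorem s1Out_of {d K : ℕ} (hd : 2 ≤ d) {w : ℕ → ℝ} {q : ℕ → ℝ → ℂ} (h : H607.S1Out d K w q) :
    S1Out d w q := by
  obtain ⟨L0, m1, h⟩ := h
  refine ⟨m1, L0, fun m hm => ⟨K, fun l lam hre hL F G hF hG e1 e2 => ?_⟩⟩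
  refine h m hm l lam hre ?_ F G ⟨hF, hG, e1, e2⟩
  unfold H607.kap2
  have := le_gL hd l
  linarith

theorem modeOK_of_UP {d : ℕ} {B : Set (ℝ × ℝ)} {m0 : ℕ} {w R : ℕ → ℝ} {q : ℕ → ℝ → ℂ}
    (h : UP d B m0 w R q) (hd : 0 < d) {m : ℕ} (hm : m0 ≤ m) (K : ℕ) {l : ℕ} {lam0 : ℂ}
    (hs : SymV l lam0) : H694.ModeOK d m K l (w m) (q m) lam0 := by
  obtain ⟨h1, h2, h3, h4⟩ := UP_modes h hd hm hs
  exact ⟨h1 K, h2 K, h3, h4⟩

/-- A radius beyond all hitting radii. -/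
theorem exists_b {d : ℕ} {B : Set (ℝ × ℝ)} {m0 : ℕ} {w R : ℕ → ℝ} {q : ℕ → ℝ → ℂ}
    (h : UP d B m0 w R q) : ∃ b : ℝ, ∀ m, m0 ≤ m → R m + 1 ≤ b := by
  obtain ⟨R1, -, R2, hR⟩ := h.Rbd
  exact ⟨R2 + 1, fun m hm => by linarith [(hR m hm).2]⟩

/-- Radial mode stability from the outputs of [S1], [X], the key estimate and the certificate. -/
theorem radStable_of_blocks {d : ℕ} (hd : 2 ≤ d) {B : Set (ℝ × ℝ)} {m0 : ℕ} {w R : ℕ → ℝ}
    {q : ℕ → ℝ → ℂ} (h : UP d B m0 w R q) (hB : IsClosed B)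
    (hcert : ∀ w R : ℝ, (w, R) ∈ B → 0 < w → 0 < R → Qinf' d w R = 0 → H694.CertGood d w R)
    {K : ℕ} (hK : 2 ≤ K) (hS1 : H607.S1Out d K w q)
    (hExt : ∀ b : ℝ, (∀ m, m0 ≤ m → R m + 1 ≤ b) → Ext d (fun _ => K) w R q b)
    (hKey : ∀ b : ℝ, (∀ m, m0 ≤ m → R m + 1 ≤ b) → ∀ l L0, H694.KeyStmt d w R q b l L0) :
    ∃ m1 : ℕ, ∀ m, m1 ≤ m → ∃ K : ℕ, RadStable d m K (w m) (q m) := by
  obtain ⟨b, hb⟩ := exists_b h
  refine radStable_of_outs (s1Out_of hd hS1) ?_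
  exact H694.s2Out_of_glue h hB hcert (K := fun _ => K) (fun _ => hK) hb (hExt b hb) (hKey b hb)
    (fun m hm l lam0 hs => modeOK_of_UP h (by omega) hm K hs)

end Vale.Agent.P139.H700
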