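import Vale.Agent.P139.H700.Viol

/-!
# P139 / H700 : the radial symmetry modes (helper700)
-/

open scoped ComplexConjugate ContDiff Topology
open Complex Filter Set

namespace Vale.Agent.P139.H700

open Vale.Agent.P139.BU Vale.Agent.P139.H311

/-- The hypotheses on a single profile used here. -/
structure Prof (d m : ℕ) (w : ℝ) (q : ℝ → ℂ) : Prop where
  hm : 1 ≤ m
  smooth : ContDiff ℝ ∞ q
  ode : ∀ r : ℝ, 0 < r →
    deriv (deriv q) r + ((((d : ℝ) - 1) / r : ℝ) + I * (r / 2 : ℝ)) * deriv q r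
      + ((w : ℂ) + I * (aa m : ℂ)) * q r = W1 m (q r) * q r

variable {d m : ℕ} {w : ℝ} {q : ℝ → ℂ}

theorem smooth_deriv' {f : ℝ → ℂ} (h : ContDiff ℝ ∞ f) : ContDiff ℝ ∞ (deriv f) :=
  ((contDiff_infty_iff_deriv (f := f)).1 h).2

theorem hasDeriv' {f : ℝ → ℂ} (h : ContDiff ℝ ∞ f) (r : ℝ) : HasDerivAt f (deriv f r) r :=
  (h.differentiable (by norm_num) r).hasDerivAt

theorem W2_mul_conj' (hm : 1 ≤ m) (z : ℂ) : W2 m z * conj z = W1 m z * z := by
  obtain ⟨k, rfl⟩ : ∃ k, m = k + 1 := ⟨m - 1, by omega⟩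
  simp only [W1, W2, Nat.add_sub_cancel]
  rw [mul_pow]
  ring

theorem W1_conj' (z : ℂ) : conj (W1 m z) = W1 m z := by
  simp only [W1, map_pow, map_mul, Complex.conj_conj, mul_comm]

theorem aa_mul' (hm : 1 ≤ m) : 2 * (m : ℂ) * (aa m : ℂ) = 1 := by
  have h : (m : ℂ) ≠ 0 := by
    have : m ≠ 0 := by omega
    exact_mod_cast this
  unfold aa
  push_cast
  field_simp

/-- Derivative of the nonlinearity along the profile. -/
theorem hasDerivAt_nonlin {r : ℝ} {q' : ℂ} (h : HasDerivAt q q' r) :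
    HasDerivAt (fun r => W1 m (q r) * q r)
      (((m : ℂ) + 1) * W1 m (q r) * q' + (m : ℂ) * W2 m (q r) * conj q') r := by
  have hc : HasDerivAt (fun r => conj (q r)) (conj q') r := h.star
  have e : (fun r => W1 m (q r) * q r) = fun r => q r ^ (m + 1) * conj (q r) ^ m := by
    funext r
    simp only [W1]
    rw [mul_pow]
    ring
  rw [e]
  have h1 := (h.pow (m + 1)).mul (hc.pow m)
  refine h1.congr_deriv ?_
  simp only [W1, W2, Nat.add_sub_cancel, Pi.pow_apply]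
  rw [mul_pow]
  push_cast
  ring

namespace Prof

variable (P : Prof d m w q)

include P

theorem hd1 (r : ℝ) : HasDerivAt q (deriv q r) r := hasDeriv' P.smooth r

theorem hd2 (r : ℝ) : HasDerivAt (deriv q) (deriv (deriv q) r) r :=
  hasDeriv' (smooth_deriv' P.smooth) r

theorem hd3 (r : ℝ) : HasDerivAt (deriv (deriv q)) (deriv (deriv (deriv q)) r) r :=
  hasDeriv' (smooth_deriv' (smooth_deriv' P.smooth)) r

/-- The equation solved for the second derivative. -/
theorem e2 {r : ℝ} (hr : 0 < r) :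
    deriv (deriv q) r = -(((d : ℂ) - 1) / r + I * (r / 2)) * deriv q r
      - ((w : ℂ) + I * (aa m : ℂ)) * q r + W1 m (q r) * q r := by
  have h := P.ode r hr
  push_cast at h
  linear_combination h

/-- The differentiated equation. -/
theorem e3 {r : ℝ} (hr : 0 < r) :
    deriv (deriv (deriv q)) r = ((d : ℂ) - 1) / (r : ℂ) ^ 2 * deriv q r - I / 2 * deriv q r
      - (((d : ℂ) - 1) / r + I * (r / 2)) * deriv (deriv q) r
      - ((w : ℂ) + I * (aa m : ℂ)) * deriv q r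
      + (((m : ℂ) + 1) * W1 m (q r) * deriv q r + (m : ℂ) * W2 m (q r) * conj (deriv q r)) := by
  have hr0 : (r : ℂ) ≠ 0 := by exact_mod_cast hr.ne'
  have hev : deriv (deriv q) =ᶠ[𝓝 r] fun r => -(((d : ℂ) - 1) / r + I * (r / 2)) * deriv q r
      - ((w : ℂ) + I * (aa m : ℂ)) * q r + W1 m (q r) * q r :=
    eventuallyEq_of_mem (isOpen_Ioi.mem_nhds hr) fun s hs => P.e2 hs
  have h1 : HasDerivAt (fun r : ℝ => ((d : ℂ) - 1) / (r : ℂ)) (-(((d : ℂ) - 1) / (r : ℂ) ^ 2)) r := by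
    have h0 : HasDerivAt (fun r : ℝ => (r : ℂ)) 1 r := Complex.ofRealCLM.hasDerivAt (x := r)
    have h2 := (hasDerivAt_const r ((d : ℂ) - 1)).div h0 hr0
    refine h2.congr_deriv ?_
    simp
    ring
  have h2 : HasDerivAt (fun r : ℝ => I * ((r : ℂ) / 2)) (I * (1 / 2)) r :=
    ((Complex.ofRealCLM.hasDerivAt (x := r)).div_const 2).const_mul I
  have h3 := ((((h1.add h2).neg.mul (P.hd2 r)).sub ((P.hd1 r).const_mul
    ((w : ℂ) + I * (aa m : ℂ)))).add (hasDerivAt_nonlin (m := m) (P.hd1 r)))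
  rw [hev.deriv_eq]
  refine (h3.deriv).trans ?_
  simp only [Pi.add_apply, Pi.neg_apply]
  ring

end Prof

/-- Conjugation symmetry of the radial operator. -/
theorem RL2_conj {l : ℕ} (F : ℝ → ℂ) (r : ℝ) :
    RL2 d m l w q F (fun r => conj (F r)) r = conj (RL1 d m l w q F (fun r => conj (F r)) r) := by
  have h1 : deriv (fun r => conj (F r)) = fun r => conj (deriv F r) := by
    funext s
    exact deriv.star
  have h2 : deriv (deriv (fun r => conj (F r))) r = conj (deriv (deriv F) r) := by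
    rw [h1]; exact deriv.star
  simp only [RL1, RL2, lapl, h2]
  simp only [h1, map_add, map_sub, map_mul, map_div₀, map_pow, map_natCast, map_one, map_ofNat,
    Complex.conj_I, Complex.conj_ofReal, Complex.conj_conj, W1_conj']
  ring

/-- Phase mode. -/
theorem RL1_phase (P : Prof d m w q) {r : ℝ} (hr : 0 < r) :
    RL1 d m 0 w q (fun r => I * q r) (fun r => conj (I * q r)) r = 0 := by
  have h1 : deriv (fun r => I * q r) = fun r => I * deriv q r := by
    funext s; exact ((P.hd1 s).const_mul I).deriv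
  have h2 : deriv (deriv (fun r => I * q r)) r = I * deriv (deriv q) r := by
    rw [h1]; exact ((P.hd2 r).const_mul I).deriv
  have E0 := P.e2 hr
  have E2 := W2_mul_conj' P.hm (q r)
  simp only [RL1, lapl, h2]
  simp only [h1, map_mul, Complex.conj_I, Nat.cast_zero]
  linear_combination (norm := (ring_nf; simp only [Complex.I_pow_three]; ring))
    I * I * E0 + I * I * m * E2

/-- Translation mode. -/
theorem RL1_trans (P : Prof d m w q) {r : ℝ} (hr : 0 < r) :
    RL1 d m 1 w q (deriv q) (fun r => conj (deriv q r)) r = 1 / 2 * deriv q r := by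
  have E3 := P.e3 hr
  have hr0 : (r : ℂ) ≠ 0 := by exact_mod_cast hr.ne'
  simp only [RL1, lapl]
  push_cast
  linear_combination (norm := (ring_nf; simp only [Complex.I_sq]; ring_nf)) I * E3

/-- Time mode. -/
theorem RL1_time (P : Prof d m w q) {r : ℝ} (hr : 0 < r) :
    RL1 d m 0 w q (fun r => ((aa m : ℂ) - I * (w : ℂ)) * q r + (r / 2) * deriv q r)
      (fun r => conj (((aa m : ℂ) - I * (w : ℂ)) * q r + (r / 2) * deriv q r)) r
      = ((aa m : ℂ) - I * (w : ℂ)) * q r + (r / 2) * deriv q r := by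
  have hr0 : (r : ℂ) ≠ 0 := by exact_mod_cast hr.ne'
  have hx : ∀ s : ℝ, HasDerivAt (fun r : ℝ => (r : ℂ) / 2) (1 / 2) s := fun s =>
    (Complex.ofRealCLM.hasDerivAt (x := s)).div_const 2
  have h1 : deriv (fun r : ℝ => ((aa m : ℂ) - I * (w : ℂ)) * q r + (r / 2) * deriv q r) =
      fun r : ℝ => ((aa m : ℂ) - I * (w : ℂ)) * deriv q r
        + (1 / 2 * deriv q r + (r / 2) * deriv (deriv q) r) := by
    funext s
    exact (((P.hd1 s).const_mul ((aa m : ℂ) - I * (w : ℂ))).add ((hx s).mul (P.hd2 s))).deriv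
  have h2 : deriv (deriv (fun r : ℝ => ((aa m : ℂ) - I * (w : ℂ)) * q r + (r / 2) * deriv q r)) r =
      ((aa m : ℂ) - I * (w : ℂ)) * deriv (deriv q) r
        + (1 / 2 * deriv (deriv q) r + (1 / 2 * deriv (deriv q) r
          + (r / 2) * deriv (deriv (deriv q)) r)) := by
    rw [h1]
    exact (((P.hd2 r).const_mul ((aa m : ℂ) - I * (w : ℂ))).add (((P.hd2 r).const_mul (1 / 2)).add
      ((hx r).mul (P.hd3 r)))).deriv
  have E0 := P.e2 hr
  have E3 := P.e3 hr
  have E2 := W2_mul_conj' P.hm (q r)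
  have hA := aa_mul' P.hm
  simp only [RL1, lapl, h2]
  simp only [h1, map_mul, map_add, map_sub, map_div₀, map_ofNat, Complex.conj_I,
    Complex.conj_ofReal, Nat.cast_zero]
  have hx0 : (r : ℂ) * (((d : ℂ) - 1) / r) = (d : ℂ) - 1 := by field_simp
  have hx1 : (r : ℂ) * (((d : ℂ) - 1) / (r : ℂ) ^ 2) = ((d : ℂ) - 1) / r := by field_simp
  generalize ((d : ℂ) - 1) / (r : ℂ) ^ 2 = D2 at *
  generalize ((d : ℂ) - 1) / (r : ℂ) = D1 at *
  linear_combination (norm := skip) (I * r / 2) * E3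
      + (I * (1 + (aa m : ℂ) - I * w)) * E0 - I * m * ((aa m : ℂ) + I * w) * E2
      - I * W1 m (q r) * q r * hA
  ring_nf
  simp only [Complex.I_sq, Complex.I_pow_three]
  linear_combination (I * deriv q r / 2) * hx1

/-- `(1+r)^k |q^{(k)}| ≤ C` for `r > 0`. -/
def Sym1 (f : ℝ → ℂ) : Prop :=
  ∀ k : ℕ, ∃ C : ℝ, ∀ r : ℝ, 0 < r → (1 + r) ^ k * ‖iteratedDeriv k f r‖ ≤ C

theorem sym1_of_profile (hd : 0 < d) (hP : IsProfile d m w (fun x : E d => q ‖x‖)) : Sym1 q := by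
  intro k
  obtain ⟨C, hC⟩ := hP.symbol k
  obtain ⟨h, hh, hQ⟩ := hP.radial
  have hQs : ContDiff ℝ ∞ (fun x : E d => q ‖x‖) := by
    have e : (fun x : E d => q ‖x‖) = fun x => h (‖x‖ ^ 2) := funext hQ
    rw [e]
    exact hh.comp (contDiff_norm_sq ℝ)
  set e0 : E d := EuclideanSpace.single (⟨0, hd⟩ : Fin d) (1 : ℝ) with he0
  have he1 : ‖e0‖ = 1 := by simp [he0]
  set L : ℝ →L[ℝ] E d := ContinuousLinearMap.toSpanSingleton ℝ e0 with hL
  have hLn : ‖L‖ ≤ 1 := by rw [hL, ContinuousLinearMap.norm_toSpanSingleton, he1]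
  refine ⟨|C|, fun r hr => ?_⟩
  have hLr : ∀ t : ℝ, 0 < t → ‖L t‖ = t := fun t ht => by
    rw [hL, ContinuousLinearMap.toSpanSingleton_apply, norm_smul, he1, mul_one,
      Real.norm_of_nonneg ht.le]
  have hev : q =ᶠ[𝓝 r] (fun x : E d => q ‖x‖) ∘ L :=
    eventuallyEq_of_mem (isOpen_Ioi.mem_nhds hr) fun t ht => by
      simp only [Function.comp_apply]
      rw [hLr t ht]
  rw [hev.iteratedDeriv_eq k, ← norm_iteratedFDeriv_eq_norm_iteratedDeriv,
    L.iteratedFDeriv_comp_right hQs r (i := k) (by exact_mod_cast le_top)]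
  have h1 := ContinuousMultilinearMap.norm_compContinuousLinearMap_le
    (iteratedFDeriv ℝ k (fun x : E d => q ‖x‖) (L r)) (fun _ : Fin k => L)
  have h2 : ∏ _i : Fin k, ‖L‖ ≤ 1 := by
    rw [Finset.prod_const]
    exact pow_le_one₀ (norm_nonneg _) hLn
  have h3 := hC (L r)
  rw [hLr r hr] at h3
  have h4 : (1 + r) ^ (-(2 * aa m) - (k : ℝ)) ≤ (1 + r) ^ (-(k : ℝ)) := by
    refine Real.rpow_le_rpow_of_exponent_le (by linarith) ?_
    have : 0 ≤ aa m := by unfold aa; positivity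
    linarith
  have h5 : (1 + r) ^ (-(k : ℝ)) = ((1 + r) ^ k)⁻¹ := by
    rw [Real.rpow_neg (by linarith), Real.rpow_natCast]
  have hpos : 0 < (1 + r) ^ k := by positivity
  have h6 : ‖(iteratedFDeriv ℝ k (fun x : E d => q ‖x‖) (L r)).compContinuousLinearMap
      fun _ : Fin k => L‖ ≤ |C| * ((1 + r) ^ k)⁻¹ := by
    calc _ ≤ ‖iteratedFDeriv ℝ k (fun x : E d => q ‖x‖) (L r)‖ * ∏ _i : Fin k, ‖L‖ := h1
      _ ≤ ‖iteratedFDeriv ℝ k (fun x : E d => q ‖x‖) (L r)‖ * 1 :=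
          mul_le_mul_of_nonneg_left h2 (norm_nonneg _)
      _ ≤ |C| * (1 + r) ^ (-(2 * aa m) - (k : ℝ)) := by
          rw [mul_one]
          exact h3.trans (mul_le_mul_of_nonneg_right (le_abs_self _) (by positivity))
      _ ≤ |C| * ((1 + r) ^ k)⁻¹ := by
          rw [← h5]
          exact mul_le_mul_of_nonneg_left h4 (abs_nonneg _)
  calc (1 + r) ^ k * _ ≤ (1 + r) ^ k * (|C| * ((1 + r) ^ k)⁻¹) :=
        mul_le_mul_of_nonneg_left h6 hpos.le
    _ = |C| := by field_simp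

/-- A smooth function on `ℝ` with bounded derivatives on `[1,∞)` is admissible. -/
theorem radAdm_of_smooth {f : ℝ → ℂ} (hf : ContDiff ℝ ∞ f)
    (h : ∀ k : ℕ, ∃ C : ℝ, ∀ r : ℝ, 1 ≤ r → ‖iteratedDeriv k f r‖ ≤ C) (K : ℕ) : RadAdm K f where
  smooth := (hf.of_le (by exact_mod_cast le_top)).contDiffOn
  bdd0 := by
    obtain ⟨C, hC⟩ := isCompact_Icc.exists_bound_of_continuousOn
      (hf.continuous.continuousOn (s := Icc (0 : ℝ) 1))
    exact ⟨C, fun r hr => hC r (Ioo_subset_Icc_self hr)⟩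
  bddinf := fun k _ => h k

theorem Sym1.radAdm {f : ℝ → ℂ} (h : Sym1 f) (hf : ContDiff ℝ ∞ f) (K : ℕ) : RadAdm K f := by
  refine radAdm_of_smooth hf (fun k => ?_) K
  obtain ⟨C, hC⟩ := h k
  refine ⟨C, fun r hr => ?_⟩
  have h1 : 1 ≤ (1 + r) ^ k := one_le_pow₀ (by linarith)
  have h2 := hC r (by linarith)
  nlinarith [norm_nonneg (iteratedDeriv k f r)]

theorem Sym1.radAdm_deriv {f : ℝ → ℂ} (h : Sym1 f) (hf : ContDiff ℝ ∞ f) (K : ℕ) :
    RadAdm K (deriv f) := by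
  refine radAdm_of_smooth (smooth_deriv' hf) (fun k => ?_) K
  obtain ⟨C, hC⟩ := h (k + 1)
  refine ⟨C, fun r hr => ?_⟩
  have h1 : 1 ≤ (1 + r) ^ (k + 1) := one_le_pow₀ (by linarith)
  have h2 := hC r (by linarith)
  rw [iteratedDeriv_succ'] at h2
  nlinarith [norm_nonneg (iteratedDeriv k (deriv f) r)]

theorem smooth_iteratedDeriv {f : ℝ → ℂ} (hf : ContDiff ℝ ∞ f) (n : ℕ) :
    ContDiff ℝ ∞ (iteratedDeriv n f) := by
  induction n with
  | zero => simpa using hf
  | succ n ih => rw [iteratedDeriv_succ]; exact smooth_deriv' ih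

theorem iteratedDeriv_id_mul {g : ℝ → ℂ} (hg : ContDiff ℝ ∞ g) (n : ℕ) :
    iteratedDeriv n (fun r : ℝ => (r : ℂ) * g r) =
      fun r : ℝ => (r : ℂ) * iteratedDeriv n g r + (n : ℂ) * iteratedDeriv (n - 1) g r := by
  induction n with
  | zero => funext r; simp
  | succ n ih =>
    rw [iteratedDeriv_succ, ih]
    funext r
    have h0 : HasDerivAt (fun r : ℝ => (r : ℂ)) 1 r := Complex.ofRealCLM.hasDerivAt (x := r)
    have h1 := hasDeriv' (smooth_iteratedDeriv hg n) r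
    have h2 := hasDeriv' (smooth_iteratedDeriv hg (n - 1)) r
    have h3 := ((h0.mul h1).add (h2.const_mul (n : ℂ))).deriv
    have e1 : deriv (iteratedDeriv n g) r = iteratedDeriv (n + 1) g r := by rw [iteratedDeriv_succ]
    have e2 : (n : ℂ) * deriv (iteratedDeriv (n - 1) g) r = (n : ℂ) * iteratedDeriv n g r := by
      rcases Nat.eq_zero_or_pos n with h | h
      · subst h; simp
      · rw [← iteratedDeriv_succ, Nat.sub_add_cancel h]
    refine h3.trans ?_
    rw [e1, e2, Nat.add_sub_cancel]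
    push_cast
    ring

theorem Sym1.radAdm_mul {f : ℝ → ℂ} (h : Sym1 f) (hf : ContDiff ℝ ∞ f) (K : ℕ) :
    RadAdm K (fun r : ℝ => (r / 2 : ℂ) * deriv f r) := by
  have hsm : ContDiff ℝ ∞ (fun r : ℝ => (r / 2 : ℂ) * deriv f r) :=
    (Complex.ofRealCLM.contDiff.div_const 2).mul (smooth_deriv' hf)
  refine radAdm_of_smooth hsm (fun k => ?_) K
  obtain ⟨C, hC⟩ := h (k + 1)
  obtain ⟨C', hC'⟩ := h (k - 1 + 1)
  refine ⟨C + (k : ℝ) * C', fun r hr => ?_⟩
  have e : (fun r : ℝ => (r / 2 : ℂ) * deriv f r) = fun r : ℝ => (1 / 2 : ℂ) * ((r : ℂ) * deriv f r) := by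
    funext r; ring
  have hs : ContDiff ℝ ∞ (fun r : ℝ => (r : ℂ) * deriv f r) :=
    Complex.ofRealCLM.contDiff.mul (smooth_deriv' hf)
  rw [e, iteratedDeriv_const_mul (1 / 2 : ℂ) ((hs.of_le (by exact_mod_cast le_top)).contDiffAt),
    iteratedDeriv_id_mul (smooth_deriv' hf), ← iteratedDeriv_succ', ← iteratedDeriv_succ']
  have h2 := hC r (by linarith)
  have h3 := hC' r (by linarith)
  have n1 := norm_nonneg (iteratedDeriv (k + 1) f r)
  have n2 := norm_nonneg (iteratedDeriv (k - 1 + 1) f r)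
  have h1 : 1 ≤ (1 + r) ^ k := one_le_pow₀ (by linarith)
  have h1' : 1 ≤ (1 + r) ^ (k - 1 + 1) := one_le_pow₀ (by linarith)
  have b1 : r * ‖iteratedDeriv (k + 1) f r‖ ≤ C := by
    refine le_trans ?_ h2
    refine mul_le_mul_of_nonneg_right ?_ n1
    rw [pow_succ]
    nlinarith
  have b2 : ‖iteratedDeriv (k - 1 + 1) f r‖ ≤ C' := by nlinarith
  have b0 : ‖(r : ℂ) * iteratedDeriv (k + 1) f r + (k : ℂ) * iteratedDeriv (k - 1 + 1) f r‖
      ≤ C + k * C' := by
    refine (norm_add_le _ _).trans ?_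
    rw [norm_mul, norm_mul, Complex.norm_real, Real.norm_of_nonneg (by linarith : (0 : ℝ) ≤ r),
      Complex.norm_natCast]
    have hk : (0 : ℝ) ≤ k := Nat.cast_nonneg k
    nlinarith [mul_le_mul_of_nonneg_left b2 hk]
  rw [norm_mul]
  have : ‖(1 / 2 : ℂ)‖ = 1 / 2 := by norm_num
  rw [this]
  nlinarith [norm_nonneg ((r : ℂ) * iteratedDeriv (k + 1) f r
    + (k : ℂ) * iteratedDeriv (k - 1 + 1) f r)]

theorem radAdm_zero (K : ℕ) : RadAdm K (fun _ => 0) :=
  radAdm_of_smooth contDiff_const (fun k => ⟨‖(0 : ℂ)‖, fun r _ => by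
    rw [iteratedDeriv_const]
    split_ifs <;> simp⟩) K

theorem RadAdm.conj {K : ℕ} {F : ℝ → ℂ} (hF : RadAdm K F) : RadAdm K (fun r => conj (F r)) where
  smooth := Complex.conjCLE.contDiff.comp_contDiffOn hF.smooth
  bdd0 := by
    obtain ⟨C, hC⟩ := hF.bdd0
    exact ⟨C, fun r hr => by rw [RCLike.norm_conj]; exact hC r hr⟩
  bddinf := by
    intro k hk
    obtain ⟨C, hC⟩ := hF.bddinf k hk
    refine ⟨C, fun r hr => ?_⟩
    rw [← norm_iteratedFDeriv_eq_norm_iteratedDeriv]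
    have e := Complex.conjLIE.norm_iteratedFDeriv_comp_left F r k
    have e2 : (fun r => conj (F r)) = Complex.conjLIE ∘ F := by funext r; simp
    rw [e2, e, norm_iteratedFDeriv_eq_norm_iteratedDeriv]
    exact hC r hr

end Vale.Agent.P139.H700
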