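import Vale.Agent.P139.H311.S2Spec

/-!
# P139 / H700 : unique continuation for radial eigenpairs (helper700)
-/

open scoped ComplexConjugate ContDiff Topology
open Complex Filter Set MeasureTheory

namespace Vale.Agent.P139.H700

open Vale.Agent.P139.BU

/-- Right hand side of a coupled pair of linear second order equations. -/
noncomputable def vf (c : Fin 6 → ℝ → ℂ) (t : ℝ) (y : ℂ × ℂ × ℂ × ℂ) : ℂ × ℂ × ℂ × ℂ :=
  (y.2.1, c 0 t * y.1 + c 1 t * y.2.1 + c 2 t * y.2.2.1, y.2.2.2,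
    c 3 t * y.1 + c 4 t * y.2.2.1 + c 5 t * y.2.2.2)

theorem vf_sub (c : Fin 6 → ℝ → ℂ) (t : ℝ) (y z : ℂ × ℂ × ℂ × ℂ) :
    vf c t y - vf c t z = vf c t (y - z) := by
  simp only [vf, Prod.fst_sub, Prod.snd_sub, Prod.mk_sub_mk, Prod.mk.injEq]
  refine ⟨trivial, by ring, trivial, by ring⟩

theorem norm_vf_le {c : Fin 6 → ℝ → ℂ} {t M : ℝ} (hM : 1 ≤ M) (hc : ∀ i, ‖c i t‖ ≤ M)
    (y : ℂ × ℂ × ℂ × ℂ) : ‖vf c t y‖ ≤ 3 * M * ‖y‖ := by
  have h1 : ‖y.1‖ ≤ ‖y‖ := norm_fst_le y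
  have h0 : ‖y.2‖ ≤ ‖y‖ := norm_snd_le y
  have h2 : ‖y.2.1‖ ≤ ‖y‖ := (norm_fst_le y.2).trans h0
  have h3' : ‖y.2.2‖ ≤ ‖y‖ := (norm_snd_le y.2).trans h0
  have h3 : ‖y.2.2.1‖ ≤ ‖y‖ := (norm_fst_le y.2.2).trans h3'
  have h4 : ‖y.2.2.2‖ ≤ ‖y‖ := (norm_snd_le y.2.2).trans h3'
  have hn : 0 ≤ ‖y‖ := norm_nonneg y
  have hb : ∀ i : Fin 6, ∀ u : ℂ, ‖u‖ ≤ ‖y‖ → ‖c i t * u‖ ≤ M * ‖y‖ := fun i u hu => by
    rw [norm_mul]
    exact mul_le_mul (hc i) hu (norm_nonneg _) (by linarith)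
  have hone : ‖y‖ ≤ 3 * M * ‖y‖ := by nlinarith
  refine norm_prod_le_iff.2 ⟨h2.trans hone, norm_prod_le_iff.2 ⟨?_, norm_prod_le_iff.2
    ⟨h4.trans hone, ?_⟩⟩⟩
  · calc ‖c 0 t * y.1 + c 1 t * y.2.1 + c 2 t * y.2.2.1‖
        ≤ ‖c 0 t * y.1‖ + ‖c 1 t * y.2.1‖ + ‖c 2 t * y.2.2.1‖ := norm_add₃_le
      _ ≤ M * ‖y‖ + M * ‖y‖ + M * ‖y‖ := by
          linarith [hb 0 _ h1, hb 1 _ h2, hb 2 _ h3]
      _ = _ := by ring
  · calc ‖c 3 t * y.1 + c 4 t * y.2.2.1 + c 5 t * y.2.2.2‖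
        ≤ ‖c 3 t * y.1‖ + ‖c 4 t * y.2.2.1‖ + ‖c 5 t * y.2.2.2‖ := norm_add₃_le
      _ ≤ M * ‖y‖ + M * ‖y‖ + M * ‖y‖ := by
          linarith [hb 3 _ h1, hb 4 _ h3, hb 5 _ h4]
      _ = _ := by ring

/-- Uniqueness for a coupled pair of linear second order equations on `(0,∞)`. -/
theorem sys_unique {c : Fin 6 → ℝ → ℂ} (hc : ∀ i, ContinuousOn (c i) (Ioi 0))
    {F F1 G G1 : ℝ → ℂ} (hF : ∀ r > 0, HasDerivAt F (F1 r) r)
    (hF1 : ∀ r > 0, HasDerivAt F1 (c 0 r * F r + c 1 r * F1 r + c 2 r * G r) r)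
    (hG : ∀ r > 0, HasDerivAt G (G1 r) r)
    (hG1 : ∀ r > 0, HasDerivAt G1 (c 3 r * F r + c 4 r * G r + c 5 r * G1 r) r)
    {b : ℝ} (hb : 0 < b) (f0 : F b = 0) (f1 : F1 b = 0) (g0 : G b = 0) (g1 : G1 b = 0) :
    ∀ r > 0, F r = 0 ∧ F1 r = 0 ∧ G r = 0 ∧ G1 r = 0 := by
  intro r hr
  set a : ℝ := min r b / 2
  set e : ℝ := max r b + 1
  have ha : 0 < a := by positivity
  have har : a < r := by
    have := min_le_left r b
    have h2 : 0 < min r b := by positivity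
    simp only [a]; linarith
  have hab : a < b := by
    have := min_le_right r b
    have h2 : 0 < min r b := by positivity
    simp only [a]; linarith
  have hre : r < e := by simp only [e]; linarith [le_max_left r b]
  have hbe : b < e := by simp only [e]; linarith [le_max_right r b]
  have hsub : Icc a e ⊆ Ioi (0 : ℝ) := fun x hx => ha.trans_le hx.1
  have hbd : ∀ i, ∃ M : ℝ, ∀ t ∈ Icc a e, ‖c i t‖ ≤ M := fun i =>
    isCompact_Icc.exists_bound_of_continuousOn ((hc i).mono hsub)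
  choose M hM using hbd
  set M0 : ℝ := 1 + ∑ i, |M i|
  have hM0 : 1 ≤ M0 := by
    have : 0 ≤ ∑ i, |M i| := Finset.sum_nonneg fun i _ => abs_nonneg _
    simp only [M0]; linarith
  have hMi : ∀ i, ∀ t ∈ Icc a e, ‖c i t‖ ≤ M0 := fun i t ht => by
    have h1 := hM i t ht
    have h2 : |M i| ≤ ∑ i, |M i| :=
      Finset.single_le_sum (f := fun i => |M i|) (fun i _ => abs_nonneg _) (Finset.mem_univ i)
    have h3 := le_abs_self (M i)
    simp only [M0]; linarith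
  have hMnn : 0 ≤ 3 * M0 := by linarith
  have hLip : ∀ t ∈ Ioo a e, LipschitzOnWith ⟨3 * M0, hMnn⟩ (vf c t) (univ : Set (ℂ × ℂ × ℂ × ℂ)) := by
    intro t ht
    refine LipschitzOnWith.of_dist_le_mul fun y _ z _ => ?_
    rw [dist_eq_norm, dist_eq_norm, vf_sub]
    exact norm_vf_le hM0 (fun i => hMi i t (Ioo_subset_Icc_self ht)) _
  have key := ODE_solution_unique_of_mem_Ioo (v := vf c) (s := fun _ => univ)
    (f := fun t => (F t, F1 t, G t, G1 t)) (g := fun _ => 0) hLip ⟨hab, hbe⟩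
    (fun t ht => ⟨(hF t (ha.trans ht.1)).prodMk ((hF1 t (ha.trans ht.1)).prodMk
      ((hG t (ha.trans ht.1)).prodMk (hG1 t (ha.trans ht.1)))), mem_univ _⟩)
    (fun t _ => ⟨by
      have : vf c t 0 = 0 := by simp [vf]
      simpa [this] using hasDerivAt_const t (0 : ℂ × ℂ × ℂ × ℂ), mem_univ _⟩)
    (by simp [f0, f1, g0, g1])
  have h := key ⟨har, hre⟩
  simp only [Prod.mk_eq_zero] at h
  exact h

/-- Coefficients of the radial spectral problem solved for the second derivatives. -/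
noncomputable def cf (d m l : ℕ) (w : ℝ) (q : ℝ → ℂ) (lam : ℂ) : Fin 6 → ℝ → ℂ
  | 0 => fun r => -I * (lam + (aa m : ℂ)) - w + ((l : ℂ) * ((l : ℂ) + d - 2) / (r : ℂ) ^ 2)
      + ((m : ℂ) + 1) * W1 m (q r)
  | 1 => fun r => -(((d : ℂ) - 1) / r) - I * (r / 2)
  | 2 => fun r => (m : ℂ) * W2 m (q r)
  | 3 => fun r => (m : ℂ) * conj (W2 m (q r))
  | 4 => fun r => I * (lam + (aa m : ℂ)) - w + ((l : ℂ) * ((l : ℂ) + d - 2) / (r : ℂ) ^ 2)
      + ((m : ℂ) + 1) * W1 m (q r)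
  | 5 => fun r => -(((d : ℂ) - 1) / r) + I * (r / 2)

theorem continuous_W1 (m : ℕ) : Continuous (W1 m) := by
  unfold W1; fun_prop

theorem continuous_W2 (m : ℕ) : Continuous (W2 m) := by
  unfold W2; fun_prop

theorem continuousOn_cf {d m l : ℕ} {w : ℝ} {q : ℝ → ℂ} {lam : ℂ}
    (hq : ContinuousOn q (Ioi 0)) : ∀ i, ContinuousOn (cf d m l w q lam i) (Ioi 0) := by
  have h1 : ContinuousOn (fun r => W1 m (q r)) (Ioi (0 : ℝ)) := (continuous_W1 m).comp_continuousOn hq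
  have h2 : ContinuousOn (fun r => W2 m (q r)) (Ioi (0 : ℝ)) := (continuous_W2 m).comp_continuousOn hq
  have h3 : ContinuousOn (fun r => conj (W2 m (q r))) (Ioi (0 : ℝ)) :=
    Complex.continuous_conj.comp_continuousOn h2
  have h4 : ContinuousOn (fun r : ℝ => (l : ℂ) * ((l : ℂ) + d - 2) / (r : ℂ) ^ 2) (Ioi (0 : ℝ)) := by
    refine ContinuousOn.div continuousOn_const (by fun_prop) fun r hr => ?_
    have : (r : ℂ) ≠ 0 := by exact_mod_cast (mem_Ioi.1 hr).ne'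
    exact pow_ne_zero _ this
  have h5 : ContinuousOn (fun r : ℝ => ((d : ℂ) - 1) / r) (Ioi (0 : ℝ)) := by
    refine ContinuousOn.div continuousOn_const (by fun_prop) fun r hr => ?_
    exact_mod_cast (mem_Ioi.1 hr).ne'
  intro i
  fin_cases i
  · exact (continuousOn_const.add h4).add (continuousOn_const.mul h1)
  · exact h5.neg.sub (by fun_prop)
  · exact continuousOn_const.mul h2
  · exact continuousOn_const.mul h3
  · exact (continuousOn_const.add h4).add (continuousOn_const.mul h1)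
  · exact h5.neg.add (by fun_prop)

theorem hasDeriv_of_C2 {F : ℝ → ℂ} (hF : ContDiffOn ℝ 2 F (Ioi 0)) {r : ℝ} (hr : 0 < r) :
    HasDerivAt F (deriv F r) r ∧ HasDerivAt (deriv F) (deriv (deriv F) r) r := by
  have hO : IsOpen (Ioi (0 : ℝ)) := isOpen_Ioi
  have h1 : DifferentiableAt ℝ F r :=
    (hF.contDiffAt (hO.mem_nhds hr)).differentiableAt (by norm_num)
  have h2 : ContDiffOn ℝ 1 (deriv F) (Ioi 0) :=
    ContDiffOn.deriv_of_isOpen hF hO (by norm_num)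
  have h3 : DifferentiableAt ℝ (deriv F) r :=
    (h2.contDiffAt (hO.mem_nhds hr)).differentiableAt (by norm_num)
  exact ⟨h1.hasDerivAt, h3.hasDerivAt⟩

/-- The radial equations solved for the second derivatives. -/
theorem second_deriv {d m l : ℕ} {w : ℝ} {q : ℝ → ℂ} {lam : ℂ} {F G : ℝ → ℂ} {r : ℝ}
    (e1 : RL1 d m l w q F G r = lam * F r) (e2 : RL2 d m l w q F G r = lam * G r) :
    deriv (deriv F) r = cf d m l w q lam 0 r * F r + cf d m l w q lam 1 r * deriv F r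
        + cf d m l w q lam 2 r * G r ∧
      deriv (deriv G) r = cf d m l w q lam 3 r * F r + cf d m l w q lam 4 r * G r
        + cf d m l w q lam 5 r * deriv G r := by
  simp only [RL1, RL2, lapl] at e1 e2
  simp only [cf]
  constructor
  · linear_combination (-I) * e1 + (deriv (deriv F) r + (((d : ℂ) - 1) / r) * deriv F r
      - ((l : ℂ) * ((l : ℂ) + d - 2) / (r : ℂ) ^ 2) * F r + w * F r
      - (((m : ℂ) + 1) * W1 m (q r) * F r + (m : ℂ) * W2 m (q r) * G r)) * Complex.I_sq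
  · linear_combination I * e2 + (deriv (deriv G) r + (((d : ℂ) - 1) / r) * deriv G r
      - ((l : ℂ) * ((l : ℂ) + d - 2) / (r : ℂ) ^ 2) * G r + w * G r
      - (((m : ℂ) + 1) * W1 m (q r) * G r + (m : ℂ) * conj (W2 m (q r)) * F r)) * Complex.I_sq

/-- Unique continuation from the data at one radius. -/
theorem uc_data {d m l : ℕ} {w : ℝ} {q : ℝ → ℂ} {lam : ℂ} {F G : ℝ → ℂ}
    (hq : ContinuousOn q (Ioi 0)) (hF : ContDiffOn ℝ 2 F (Ioi 0)) (hG : ContDiffOn ℝ 2 G (Ioi 0))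
    (e1 : ∀ r > 0, RL1 d m l w q F G r = lam * F r)
    (e2 : ∀ r > 0, RL2 d m l w q F G r = lam * G r) {b : ℝ} (hb : 0 < b)
    (f0 : F b = 0) (f1 : deriv F b = 0) (g0 : G b = 0) (g1 : deriv G b = 0) :
    ∀ r > 0, F r = 0 ∧ G r = 0 := by
  intro r hr
  have h := sys_unique (continuousOn_cf (d := d) (m := m) (l := l) (w := w) (lam := lam) hq)
    (fun r hr => (hasDeriv_of_C2 hF hr).1)
    (fun r hr => by
      rw [← (second_deriv (e1 r hr) (e2 r hr)).1]; exact (hasDeriv_of_C2 hF hr).2)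
    (fun r hr => (hasDeriv_of_C2 hG hr).1)
    (fun r hr => by
      rw [← (second_deriv (e1 r hr) (e2 r hr)).2]; exact (hasDeriv_of_C2 hG hr).2)
    hb f0 f1 g0 g1 r hr
  exact ⟨h.1, h.2.2.1⟩

/-- Unique continuation from an interval `(a, b)`. -/
theorem uc_Ioo {d m l : ℕ} {w : ℝ} {q : ℝ → ℂ} {lam : ℂ} {F G : ℝ → ℂ}
    (hq : ContinuousOn q (Ioi 0)) (hF : ContDiffOn ℝ 2 F (Ioi 0)) (hG : ContDiffOn ℝ 2 G (Ioi 0))
    (e1 : ∀ r > 0, RL1 d m l w q F G r = lam * F r)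
    (e2 : ∀ r > 0, RL2 d m l w q F G r = lam * G r) {a b : ℝ} (ha : 0 ≤ a) (hab : a < b)
    (h0 : ∀ r ∈ Ioo a b, F r = 0 ∧ G r = 0) :
    ∀ r > 0, F r = 0 ∧ G r = 0 := by
  obtain ⟨c, hc⟩ := exists_between hab
  have hc0 : 0 < c := ha.trans_lt hc.1
  have eF : F =ᶠ[𝓝 c] fun _ => 0 :=
    eventuallyEq_of_mem (isOpen_Ioo.mem_nhds hc) fun x hx => (h0 x hx).1
  have eG : G =ᶠ[𝓝 c] fun _ => 0 :=
    eventuallyEq_of_mem (isOpen_Ioo.mem_nhds hc) fun x hx => (h0 x hx).2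
  exact uc_data hq hF hG e1 e2 hc0 (h0 c hc).1 (by rw [eF.deriv_eq]; simp) (h0 c hc).2
    (by rw [eG.deriv_eq]; simp)

/-- The `L²` size on `(0,b)` vanishes only for pairs vanishing on `(0,b)`. -/
theorem zero_of_nrm {K d : ℕ} {F G : ℝ → ℂ} (hF : RadAdm K F) (hG : RadAdm K G) {b : ℝ}
    (hb : 0 < b) (h : H311.nrm d b F G = 0) : ∀ r ∈ Ioo 0 b, F r = 0 ∧ G r = 0 := by
  set f : ℝ → ℝ := fun r => r ^ (d - 1) * (‖F r‖ ^ 2 + ‖G r‖ ^ 2)
  have cF : ContinuousOn F (Ioi 0) := hF.smooth.continuousOn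
  have cG : ContinuousOn G (Ioi 0) := hG.smooth.continuousOn
  have cf : ContinuousOn f (Ioi 0) := by
    refine ContinuousOn.mul (by fun_prop) ((cF.norm.pow 2).add (cG.norm.pow 2))
  have hpos : ∀ r ∈ Ioo (0 : ℝ) b, 0 ≤ f r := fun r hr => by
    have := hr.1
    simp only [f]; positivity
  -- boundedness, hence integrability
  have hbdd : ∀ {F : ℝ → ℂ}, RadAdm K F → ∃ C, ∀ r ∈ Ioo (0 : ℝ) b, ‖F r‖ ≤ C := by
    intro F hF
    obtain ⟨C0, hC0⟩ := hF.bdd0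
    obtain ⟨C1, hC1⟩ := hF.bddinf 0 (Nat.zero_le _)
    refine ⟨max C0 C1, fun r hr => ?_⟩
    rcases lt_or_ge r 1 with h1 | h1
    · exact (hC0 r ⟨hr.1, h1⟩).trans (le_max_left _ _)
    · have := hC1 r h1
      simp only [iteratedDeriv_zero] at this
      exact this.trans (le_max_right _ _)
  obtain ⟨CF, hCF⟩ := hbdd hF
  obtain ⟨CG, hCG⟩ := hbdd hG
  have hint : IntegrableOn f (Ioo 0 b) := by
    refine Integrable.of_bound ((cf.mono fun x hx => hx.1).aestronglyMeasurable measurableSet_Ioo)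
      (b ^ (d - 1) * (CF ^ 2 + CG ^ 2)) ?_
    refine (ae_restrict_iff' measurableSet_Ioo).2 (Eventually.of_forall fun r hr => ?_)
    rw [Real.norm_of_nonneg (hpos r hr)]
    have h1 := hCF r hr
    have h2 := hCG r hr
    have h3 : r ^ (d - 1) ≤ b ^ (d - 1) := pow_le_pow_left₀ hr.1.le hr.2.le _
    have h4 : ‖F r‖ ^ 2 ≤ CF ^ 2 := pow_le_pow_left₀ (norm_nonneg _) h1 _
    have h5 : ‖G r‖ ^ 2 ≤ CG ^ 2 := pow_le_pow_left₀ (norm_nonneg _) h2 _
    exact mul_le_mul h3 (by linarith) (by positivity) (by positivity)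
  have hzero : ∫ r in Ioo 0 b, f r = 0 := by
    have h1 : (∫ r in (0 : ℝ)..b, f r) = 0 := by
      have h2 : 0 ≤ ∫ r in (0 : ℝ)..b, f r := by
        rw [intervalIntegral.integral_of_le hb.le, integral_Ioc_eq_integral_Ioo]
        exact setIntegral_nonneg measurableSet_Ioo hpos
      exact (Real.sqrt_eq_zero h2).1 h
    rwa [intervalIntegral.integral_of_le hb.le, integral_Ioc_eq_integral_Ioo] at h1
  have hae : f =ᵐ[volume.restrict (Ioo 0 b)] 0 :=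
    (setIntegral_eq_zero_iff_of_nonneg_ae
      ((ae_restrict_iff' measurableSet_Ioo).2 (Eventually.of_forall hpos)) hint).1 hzero
  have hall : EqOn f 0 (Ioo 0 b) :=
    Measure.eqOn_open_of_ae_eq hae isOpen_Ioo (cf.mono fun x hx => hx.1) continuousOn_const
  intro r hr
  have h1 : r ^ (d - 1) * (‖F r‖ ^ 2 + ‖G r‖ ^ 2) = 0 := hall hr
  have h2 : r ^ (d - 1) ≠ 0 := pow_ne_zero _ hr.1.ne'
  have h3 : ‖F r‖ ^ 2 + ‖G r‖ ^ 2 = 0 := (mul_eq_zero.1 h1).resolve_left h2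
  have h4 : 0 ≤ ‖F r‖ ^ 2 := by positivity
  have h5 : 0 ≤ ‖G r‖ ^ 2 := by positivity
  constructor
  · have : ‖F r‖ ^ 2 = 0 := by linarith
    simpa using this
  · have : ‖G r‖ ^ 2 = 0 := by linarith
    simpa using this

/-- A radial eigenpair with vanishing `L²` size on `(0,b)` vanishes. -/
theorem uc_nrm {d m l K : ℕ} {w : ℝ} {q : ℝ → ℂ} {lam : ℂ} {F G : ℝ → ℂ} (hK : 2 ≤ K)
    (hq : ContinuousOn q (Ioi 0)) (hF : RadAdm K F) (hG : RadAdm K G)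
    (e1 : ∀ r > 0, RL1 d m l w q F G r = lam * F r)
    (e2 : ∀ r > 0, RL2 d m l w q F G r = lam * G r) {b : ℝ} (hb : 0 < b)
    (h : H311.nrm d b F G = 0) : ∀ r > 0, F r = 0 ∧ G r = 0 :=
  uc_Ioo hq (hF.smooth.of_le (by exact_mod_cast hK)) (hG.smooth.of_le (by exact_mod_cast hK))
    e1 e2 le_rfl hb (zero_of_nrm hF hG hb h)

end Vale.Agent.P139.H700
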